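import Mathlib

/-!
Rational span of the rows of the discrete Fourier matrix together with the coordinate vectors:
any finite set whose rational span contains all of them has at least `2 n - τ(n)` elements, where
`τ(n)` is the number of divisors of `n`.
-/

namespace Vale.Agent.Lib.Helper8

open Finset Polynomial Module

/-- A rational polynomial taking a rational value at one primitive root takes the same value at
every primitive root of the same order. -/
lemma aeval_eq_of_primitive {M : ℕ} (hM : 0 < M) {μ μ' : ℂ} (hμ : IsPrimitiveRoot μ M)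
    (hμ' : IsPrimitiveRoot μ' M) (P : ℚ[X]) (q : ℚ) (h : aeval μ P = (q : ℂ)) :
    aeval μ' P = (q : ℂ) := by
  have h1 : aeval μ (P - C q) = 0 := by
    rw [map_sub, h, aeval_C]
    simp
  have h2 : minpoly ℚ μ ∣ P - C q := minpoly.dvd ℚ μ h1
  have h3 : minpoly ℚ μ = minpoly ℚ μ' := by
    rw [← cyclotomic_eq_minpoly_rat hμ hM, ← cyclotomic_eq_minpoly_rat hμ' hM]
  rw [h3] at h2
  obtain ⟨Q, hQ⟩ := h2
  have h4 : aeval μ' (P - C q) = 0 := by
    rw [hQ, map_mul, minpoly.aeval, zero_mul]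
  rw [map_sub, aeval_C] at h4
  have h5 := sub_eq_zero.mp h4
  rw [h5]
  simp

lemma primitive_pow {n : ℕ} (hn : 0 < n) {ζ : ℂ} (hζ : IsPrimitiveRoot ζ n) (k : ℕ) :
    IsPrimitiveRoot (ζ ^ k) (n / Nat.gcd k n) := by
  have hgpos : 0 < Nat.gcd k n := Nat.gcd_pos_of_pos_right k hn
  have h1 : IsPrimitiveRoot (ζ ^ Nat.gcd k n) (n / Nat.gcd k n) :=
    hζ.pow_of_dvd hgpos.ne' (Nat.gcd_dvd_right k n)
  have h2 : ζ ^ k = (ζ ^ Nat.gcd k n) ^ (k / Nat.gcd k n) := by
    rw [← pow_mul, Nat.mul_div_cancel' (Nat.gcd_dvd_left k n)]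
  rw [h2]
  exact h1.pow_of_coprime _ (Nat.coprime_div_gcd_div_gcd hgpos)

theorem dft_span_card {n : ℕ} (hn : 0 < n) {ζ : ℂ} (hζ : IsPrimitiveRoot ζ n)
    (B : Finset (Fin n → ℂ))
    (he : ∀ k : Fin n, Pi.single k (1 : ℂ) ∈ Submodule.span ℚ (B : Set (Fin n → ℂ)))
    (hf : ∀ j : Fin n, (fun k : Fin n => ζ ^ (j.val * k.val)) ∈
      Submodule.span ℚ (B : Set (Fin n → ℂ))) :
    2 * n ≤ B.card + (Nat.divisors n).card := by
  classical
  obtain ⟨e, he_def⟩ : ∃ e : Fin n → (Fin n → ℂ), e = fun k => Pi.single k (1 : ℂ) := ⟨_, rfl⟩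
  obtain ⟨f, hf_def⟩ : ∃ f : Fin n → (Fin n → ℂ), f = fun j k => ζ ^ (j.val * k.val) := ⟨_, rfl⟩
  obtain ⟨g, hg_def⟩ : ∃ g : (Nat.divisors n) → (Fin n → ℂ),
      g = fun d k => if Nat.gcd k.val n = d.val then (1 : ℂ) else 0 := ⟨_, rfl⟩
  -- linear independence over the rationals
  have hinj : Function.Injective fun r : ℚ => r • (1 : ℂ) := by
    intro a b hab
    simp only [Rat.smul_def, mul_one] at hab
    exact_mod_cast hab
  have hEli : LinearIndependent ℚ e := by
    rw [he_def]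
    exact (Pi.linearIndependent_single_one (Fin n) ℂ).restrict_scalars hinj
  have hFli : LinearIndependent ℚ f := by
    have hdet : (Matrix.vandermonde (fun j : Fin n => ζ ^ j.val)).det ≠ 0 := by
      rw [Matrix.det_vandermonde_ne_zero_iff]
      intro a b hab
      exact Fin.ext (hζ.pow_inj a.isLt b.isLt hab)
    have h1 := Matrix.linearIndependent_rows_of_det_ne_zero hdet
    have h2 : (fun i => Matrix.vandermonde (fun j : Fin n => ζ ^ j.val) i) = f := by
      rw [hf_def]
      funext j k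
      simp [Matrix.vandermonde_apply, pow_mul]
    rw [h2] at h1
    exact h1.restrict_scalars hinj
  obtain ⟨E, hE_def⟩ : ∃ E : Submodule ℚ (Fin n → ℂ), E = Submodule.span ℚ (Set.range e) :=
    ⟨_, rfl⟩
  obtain ⟨F, hF_def⟩ : ∃ F : Submodule ℚ (Fin n → ℂ), F = Submodule.span ℚ (Set.range f) :=
    ⟨_, rfl⟩
  obtain ⟨G, hG_def⟩ : ∃ G : Submodule ℚ (Fin n → ℂ), G = Submodule.span ℚ (Set.range g) :=
    ⟨_, rfl⟩
  obtain ⟨U, hU_def⟩ : ∃ U : Submodule ℚ (Fin n → ℂ),
      U = Submodule.span ℚ (B : Set (Fin n → ℂ)) := ⟨_, rfl⟩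
  have hEfin : FiniteDimensional ℚ E := by
    rw [hE_def]; exact FiniteDimensional.span_of_finite ℚ (Set.finite_range e)
  have hFfin : FiniteDimensional ℚ F := by
    rw [hF_def]; exact FiniteDimensional.span_of_finite ℚ (Set.finite_range f)
  have hGfin : FiniteDimensional ℚ G := by
    rw [hG_def]; exact FiniteDimensional.span_of_finite ℚ (Set.finite_range g)
  have hUfin : FiniteDimensional ℚ U := by
    rw [hU_def]; exact FiniteDimensional.span_finset ℚ B
  have hEdim : finrank ℚ E = n := by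
    rw [hE_def, finrank_span_eq_card hEli, Fintype.card_fin]
  have hFdim : finrank ℚ F = n := by
    rw [hF_def, finrank_span_eq_card hFli, Fintype.card_fin]
  have hUdim : finrank ℚ U ≤ B.card := by
    rw [hU_def]; exact finrank_span_finset_le_card B
  have hGdim : finrank ℚ G ≤ (Nat.divisors n).card := by
    rw [hG_def]
    have := finrank_range_le_card (R := ℚ) g
    rwa [Fintype.card_coe] at this
  have hEU : E ≤ U := by
    rw [hE_def, hU_def]
    apply Submodule.span_le.mpr
    rintro _ ⟨k, rfl⟩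
    rw [he_def]
    exact he k
  have hFU : F ≤ U := by
    rw [hF_def, hU_def]
    apply Submodule.span_le.mpr
    rintro _ ⟨j, rfl⟩
    rw [hf_def]
    exact hf j
  -- vectors of `E` have rational coordinates
  have hrat : ∀ r ∈ E, ∀ k, ∃ q : ℚ, r k = (q : ℂ) := by
    intro r hr
    rw [hE_def] at hr
    refine Submodule.span_induction ?_ ?_ ?_ ?_ hr
    · rintro _ ⟨k', rfl⟩ k
      rw [he_def]
      by_cases hkk : k = k'
      · exact ⟨1, by rw [hkk]; simp⟩
      · exact ⟨0, by simp [hkk]⟩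
    · intro k
      exact ⟨0, by simp⟩
    · intro x y _ _ hx hy k
      obtain ⟨qx, hqx⟩ := hx k
      obtain ⟨qy, hqy⟩ := hy k
      exact ⟨qx + qy, by rw [Pi.add_apply, hqx, hqy]; push_cast; ring⟩
    · intro a x _ hx k
      obtain ⟨qx, hqx⟩ := hx k
      exact ⟨a * qx, by rw [Pi.smul_apply, hqx, Rat.smul_def]; push_cast; ring⟩
  -- the intersection lies in the span of the indicators of the gcd classes
  have hinf : E ⊓ F ≤ G := by
    intro r hr
    obtain ⟨hrE, hrF⟩ := Submodule.mem_inf.mp hr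
    rw [hF_def] at hrF
    obtain ⟨a, ha⟩ := Submodule.mem_span_range_iff_exists_fun ℚ |>.mp hrF
    obtain ⟨P, hP⟩ : ∃ P : ℚ[X], P = ∑ j : Fin n, C (a j) * X ^ j.val := ⟨_, rfl⟩
    have hval : ∀ k : Fin n, r k = aeval (ζ ^ k.val) P := by
      intro k
      rw [← ha, hP, map_sum, Finset.sum_apply]
      refine Finset.sum_congr rfl fun j _ => ?_
      rw [hf_def]
      simp only [Pi.smul_apply, Rat.smul_def, map_mul, aeval_C, map_pow, aeval_X]
      rw [← pow_mul, mul_comm k.val j.val]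
      simp
    have hkey : ∀ k k' : Fin n, Nat.gcd k.val n = Nat.gcd k'.val n → r k = r k' := by
      intro k k' hgcd
      obtain ⟨q, hq⟩ := hrat r hrE k
      have hMpos : 0 < n / Nat.gcd k.val n :=
        Nat.div_pos (Nat.le_of_dvd hn (Nat.gcd_dvd_right _ _)) (Nat.gcd_pos_of_pos_right _ hn)
      have h1 := primitive_pow hn hζ k.val
      have h2 := primitive_pow hn hζ k'.val
      rw [← hgcd] at h2
      have h3 := aeval_eq_of_primitive hMpos h1 h2 P q (by rw [← hval, hq])
      rw [hq, hval k', h3]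
    obtain ⟨ρ, hρ⟩ : ∃ ρ : Fin n → ℚ, ∀ k, r k = (ρ k : ℂ) :=
      ⟨fun k => Classical.choose (hrat r hrE k), fun k => Classical.choose_spec (hrat r hrE k)⟩
    rw [hG_def]
    apply (Submodule.mem_span_range_iff_exists_fun ℚ).mpr
    refine ⟨fun d => if h : ∃ k : Fin n, Nat.gcd k.val n = d.val then ρ (Classical.choose h)
      else 0, ?_⟩
    funext k
    rw [Finset.sum_apply]
    have hmem : Nat.gcd k.val n ∈ Nat.divisors n :=
      Nat.mem_divisors.mpr ⟨Nat.gcd_dvd_right _ _, hn.ne'⟩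
    rw [Finset.sum_eq_single ⟨Nat.gcd k.val n, hmem⟩]
    · have hex : ∃ k' : Fin n, Nat.gcd k'.val n = Nat.gcd k.val n := ⟨k, rfl⟩
      rw [hg_def]
      simp only [Pi.smul_apply, dif_pos hex, if_true, Rat.smul_def, mul_one]
      rw [← hρ]
      exact hkey _ _ (Classical.choose_spec hex)
    · intro d _ hd
      rw [hg_def]
      have hne : ¬ (Nat.gcd k.val n = d.val) := by
        intro h
        apply hd
        exact Subtype.ext h.symm
      simp [hne]
    · intro h
      exact absurd (Finset.mem_univ _) h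
  have hsum := Submodule.finrank_sup_add_finrank_inf_eq E F
  have h1 : finrank ℚ (E ⊔ F : Submodule ℚ (Fin n → ℂ)) ≤ finrank ℚ U :=
    Submodule.finrank_mono (sup_le hEU hFU)
  have h2 : finrank ℚ (E ⊓ F : Submodule ℚ (Fin n → ℂ)) ≤ finrank ℚ G :=
    Submodule.finrank_mono hinf
  omega

end Vale.Agent.Lib.Helper8
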