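import Vale.Agent.Lib.Helper8.LinCircuit
import Vale.Agent.Lib.Helper8.DftRank

/-!
A linear circuit computing the discrete Fourier transform of order `n ≥ 2` has at least
`3 n - 2 - τ(n)` gates, where `τ(n)` is the number of divisors of `n`.
-/

namespace Vale.Agent.Lib.Helper8

open Finset

theorem dft_circuit_lower (n : ℕ) (hn : 2 ≤ n) (l : List (Fin n → ℂ)) (hl : LinCircuit n l)
    (hout : ∀ j : Fin n,
      (fun k : Fin n => Complex.exp (2 * Real.pi * Complex.I / n) ^ (j.val * k.val)) ∈ l) :
    3 * n ≤ l.length + 2 + (Nat.divisors n).card := by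
  classical
  obtain ⟨m, rfl⟩ : ∃ m, n = m + 2 := ⟨n - 2, by omega⟩
  obtain ⟨ζ, hζdef⟩ : ∃ ζ : ℂ, ζ = Complex.exp (2 * Real.pi * Complex.I / ((m + 2 : ℕ) : ℂ)) :=
    ⟨_, rfl⟩
  rw [← hζdef] at hout
  have hζ : IsPrimitiveRoot ζ (m + 2) := by
    rw [hζdef]
    exact Complex.isPrimitiveRoot_exp (m + 2) (by omega)
  have hζ0 : ζ ≠ 0 := hζ.ne_zero (by omega)
  obtain ⟨a, s, hlen, Rs, Ts, B, hc1, hc2, hB, hall⟩ := circuit_goodSets hl
  -- the ratios
  have hR : (m + 2) ≤ Rs.card := by
    have hsub : (Finset.univ.image (fun j : Fin (m + 2) => ζ ^ j.val)) ⊆ Rs := by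
      intro x hx
      obtain ⟨j, -, rfl⟩ := Finset.mem_image.mp hx
      have h1 := (hall _ (hout j)).1
      have h2 : (fun k : Fin (m + 2) => ζ ^ (j.val * k.val)) 0 = 1 := by simp
      have h3 : (fun k : Fin (m + 2) => ζ ^ (j.val * k.val)) 1 = ζ ^ j.val := by simp
      have h4 := h1 (by rw [h2]; exact one_ne_zero)
      rw [h2, h3, div_one] at h4
      rcases h4 with h4 | h4
      · exact absurd h4 (pow_ne_zero _ hζ0)
      · exact h4
    have hcard : (Finset.univ.image (fun j : Fin (m + 2) => ζ ^ j.val)).card = m + 2 := by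
      rw [Finset.card_image_of_injective]
      · simp
      · intro a b hab
        exact Fin.ext (hζ.pow_inj a.isLt b.isLt hab)
    calc m + 2 = _ := hcard.symm
      _ ≤ Rs.card := Finset.card_le_card hsub
  -- the entered variables
  have hT : m ≤ Ts.card := by
    have hsub : (Finset.univ.image (fun i : Fin m => (⟨i.val + 2, by omega⟩ : Fin (m + 2)))) ⊆
        Ts := by
      intro x hx
      obtain ⟨i, -, rfl⟩ := Finset.mem_image.mp hx
      have h1 := (hall _ (hout 0)).2.1
      apply h1
      · simp
      · refine ⟨0, ?_, ?_⟩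
        · rw [Fin.lt_def, Fin.val_zero]; simp
        · simp
      · simp
    have hcard : (Finset.univ.image
        (fun i : Fin m => (⟨i.val + 2, by omega⟩ : Fin (m + 2)))).card = m := by
      rw [Finset.card_image_of_injective]
      · simp
      · intro a b hab
        have := congrArg Fin.val hab
        simp only [add_left_inj] at this
        exact Fin.ext this
    calc m = _ := hcard.symm
      _ ≤ Ts.card := Finset.card_le_card hsub
  -- the rational span
  have hS := dft_span_card (n := m + 2) (by omega) hζ B hB (fun j => (hall _ (hout j)).2.2)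
  omega

end Vale.Agent.Lib.Helper8
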