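import Vale.Agent.Lib.Helper8.Rounding

/-!
Mean-square balancing of the initial-segment sums of a sequence of vectors in the unit ball of
Euclidean space: a weighted form with test vectors, and a form with scalar weights.
-/

namespace Vale.Agent.Lib.Helper8

open Finset

/-- Test-vector form: for unit-ball vectors `v i` and arbitrary test vectors `θ k j`, some choice
of signs makes the total of the squared components of the initial-segment sums along the test
vectors at most the total squared length of the test vectors. -/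
theorem test_vector_rounding (d N m : ℕ) (v : Fin N → EuclideanSpace ℝ (Fin d))
    (hv : ∀ i, ‖v i‖ ≤ 1) (θ : Fin N → Fin m → EuclideanSpace ℝ (Fin d)) :
    ∃ ε : Fin N → ℝ, (∀ i, ε i = 1 ∨ ε i = -1) ∧
      ∑ k, ∑ j, (inner ℝ (θ k j) (∑ i ∈ Finset.Iic k, ε i • v i)) ^ 2 ≤
        ∑ k, ∑ j, ‖θ k j‖ ^ 2 := by
  classical
  -- the lifted vectors
  obtain ⟨u, hu⟩ : ∃ u : Fin N → EuclideanSpace ℝ (Fin N × Fin m), u = fun i =>
      WithLp.toLp 2 (fun km : Fin N × Fin m =>
        if i ≤ km.1 then inner ℝ (θ km.1 km.2) (v i) else 0) := ⟨_, rfl⟩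
  obtain ⟨w, hw⟩ : ∃ w : Fin d → EuclideanSpace ℝ (Fin N × Fin m), w = fun a =>
      WithLp.toLp 2 (fun km : Fin N × Fin m => θ km.1 km.2 a) := ⟨_, rfl⟩
  have hinner : ∀ (x z : EuclideanSpace ℝ (Fin d)), inner ℝ x z = ∑ a, x a * z a := by
    intro x z
    rw [PiLp.inner_apply]
    simp [mul_comm]
  have hc : ∀ p, ∑ a, (v p a) ^ 2 ≤ 1 := by
    intro p
    rw [← EuclideanSpace.real_norm_sq_eq]
    have h0 := norm_nonneg (v p)
    have h1 := hv p
    nlinarith
  have horth : ∀ p j, p ≤ j → inner ℝ (∑ a, v p a • w a - u p) (u j) = 0 := by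
    intro p j hpj
    rw [PiLp.inner_apply]
    refine Finset.sum_eq_zero fun km _ => ?_
    have h1 : (u j) km = if j ≤ km.1 then inner ℝ (θ km.1 km.2) (v j) else 0 := by
      rw [hu]
    have h2 : (∑ a, v p a • w a - u p) km =
        (if p ≤ km.1 then 0 else inner ℝ (θ km.1 km.2) (v p)) := by
      have e1 : (∑ a, v p a • w a) km = inner ℝ (θ km.1 km.2) (v p) := by
        rw [hinner, hw]
        simp [mul_comm]
      have e2 : (u p) km = if p ≤ km.1 then inner ℝ (θ km.1 km.2) (v p) else 0 := by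
        rw [hu]
      have e3 : (∑ a, v p a • w a - u p) km = (∑ a, v p a • w a) km - (u p) km := rfl
      rw [e3, e1, e2]
      split_ifs <;> simp
    rw [h1, h2]
    by_cases hjk : j ≤ km.1
    · have hpk : p ≤ km.1 := le_trans hpj hjk
      simp [hpk]
    · simp [hjk]
  obtain ⟨ε, hε, hle⟩ := hilbert_rounding u w (fun p a => v p a) hc horth
  refine ⟨ε, hε, ?_⟩
  have hL : ‖∑ i, ε i • u i‖ ^ 2 =
      ∑ k, ∑ j, (inner ℝ (θ k j) (∑ i ∈ Finset.Iic k, ε i • v i)) ^ 2 := by
    rw [EuclideanSpace.real_norm_sq_eq, Fintype.sum_prod_type]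
    refine Finset.sum_congr rfl fun k _ => Finset.sum_congr rfl fun j _ => ?_
    congr 1
    have e1 : (∑ i, ε i • u i) (k, j) =
        ∑ i, ε i * (if i ≤ k then inner ℝ (θ k j) (v i) else 0) := by
      rw [hu]
      simp
    rw [e1, inner_sum]
    have e2 : ∑ i ∈ Finset.Iic k, inner ℝ (θ k j) (ε i • v i) =
        ∑ i, (if i ≤ k then inner ℝ (θ k j) (ε i • v i) else 0) := by
      rw [← Finset.sum_filter]
      refine Finset.sum_congr ?_ fun _ _ => rfl
      ext i
      simp
    rw [e2]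
    refine Finset.sum_congr rfl fun i _ => ?_
    by_cases hik : i ≤ k
    · simp [hik, inner_smul_right]
    · simp [hik]
  have hR : ∑ a, ‖w a‖ ^ 2 = ∑ k, ∑ j, ‖θ k j‖ ^ 2 := by
    have e1 : ∀ a, ‖w a‖ ^ 2 = ∑ k, ∑ j, (θ k j a) ^ 2 := by
      intro a
      rw [EuclideanSpace.real_norm_sq_eq, Fintype.sum_prod_type, hw]
    simp only [e1]
    rw [Finset.sum_comm]
    refine Finset.sum_congr rfl fun k _ => ?_
    rw [Finset.sum_comm]
    refine Finset.sum_congr rfl fun j _ => ?_
    rw [EuclideanSpace.real_norm_sq_eq]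
  rw [← hL, ← hR]
  exact hle

/-- Scalar-weight form: for unit-ball vectors `v i` in `d`-dimensional Euclidean space and
nonnegative weights `ρ k`, some choice of signs makes the weighted total of the squared lengths
of the initial-segment sums at most `d` times the total weight. -/
theorem weighted_mean_square (d N : ℕ) (v : Fin N → EuclideanSpace ℝ (Fin d))
    (hv : ∀ i, ‖v i‖ ≤ 1) (ρ : Fin N → ℝ) (hρ : ∀ k, 0 ≤ ρ k) :
    ∃ ε : Fin N → ℝ, (∀ i, ε i = 1 ∨ ε i = -1) ∧
      ∑ k, ρ k * ‖∑ i ∈ Finset.Iic k, ε i • v i‖ ^ 2 ≤ d * ∑ k, ρ k := by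
  classical
  obtain ⟨ε, hε, hle⟩ := test_vector_rounding d N d v hv
    (fun k j => EuclideanSpace.single j (Real.sqrt (ρ k)))
  refine ⟨ε, hε, ?_⟩
  have hL : ∀ k, ∑ j, (inner ℝ (EuclideanSpace.single j (Real.sqrt (ρ k)))
      (∑ i ∈ Finset.Iic k, ε i • v i)) ^ 2 = ρ k * ‖∑ i ∈ Finset.Iic k, ε i • v i‖ ^ 2 := by
    intro k
    rw [EuclideanSpace.real_norm_sq_eq, Finset.mul_sum]
    refine Finset.sum_congr rfl fun j _ => ?_
    rw [EuclideanSpace.inner_single_left]
    simp only [conj_trivial]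
    rw [mul_pow, Real.sq_sqrt (hρ k)]
  have hR : ∀ k, ∑ j : Fin d, ‖(EuclideanSpace.single j (Real.sqrt (ρ k)) :
      EuclideanSpace ℝ (Fin d))‖ ^ 2 = d * ρ k := by
    intro k
    simp only [EuclideanSpace.single, PiLp.norm_single, Real.norm_eq_abs, sq_abs, Real.sq_sqrt (hρ k)]
    simp
  simp only [hL, hR] at hle
  rw [Finset.mul_sum]
  exact hle

end Vale.Agent.Lib.Helper8
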