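import Mathlib

/-!
Linear circuits (straight-line programs with gates `u + v`, `u - v`, `c • u`) and two potential
arguments bounding the number of gates from below.

A linear form `∑ k, a k * x k` in the inputs `x 0, …, x (n-1)` is represented by its coefficient
vector `a : Fin n → ℂ`.
-/

namespace Vale.Agent.Lib.Helper8

open Finset

/-- The values a gate may use: a form computed by an earlier gate, the constant `0`, or an input
`x k` (coefficient vector `Pi.single k 1`). -/
def Avail {n : ℕ} (l : List (Fin n → ℂ)) (u : Fin n → ℂ) : Prop :=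
  u ∈ l ∨ u = 0 ∨ ∃ k, u = Pi.single k 1

/-- `LinCircuit n l` says that `l` lists, latest gate first, the linear forms computed by the
gates of a linear circuit with inputs `x 0, …, x (n-1)` and the constant `0`: every gate computes
`u + v`, `u - v` or `c • u` (for a complex constant `c`) from available values `u`, `v`.  The
number of gates of the circuit is `l.length`. -/
inductive LinCircuit (n : ℕ) : List (Fin n → ℂ) → Prop
  | nil : LinCircuit n []
  | add {l : List (Fin n → ℂ)} {u v : Fin n → ℂ} :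
      LinCircuit n l → Avail l u → Avail l v → LinCircuit n ((u + v) :: l)
  | sub {l : List (Fin n → ℂ)} {u v : Fin n → ℂ} :
      LinCircuit n l → Avail l u → Avail l v → LinCircuit n ((u - v) :: l)
  | smul {l : List (Fin n → ℂ)} {u : Fin n → ℂ} (c : ℂ) :
      LinCircuit n l → Avail l u → LinCircuit n ((c • u) :: l)

section potentials

variable {m : ℕ}

/-- First condition: the ratio of the first two coefficients is `0` or belongs to `Rs`. -/
def RatioIn (Rs : Finset ℂ) (u : Fin (m + 2) → ℂ) : Prop :=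
  u 0 ≠ 0 → u 1 / u 0 = 0 ∨ u 1 / u 0 ∈ Rs

/-- Second condition: every variable of index at least two which occurs in `u` together with a
variable of smaller index belongs to `Ts`. -/
def EnteredIn (Ts : Finset (Fin (m + 2))) (u : Fin (m + 2) → ℂ) : Prop :=
  ∀ k : Fin (m + 2), 2 ≤ k.val → (∃ i, i < k ∧ u i ≠ 0) → u k ≠ 0 → k ∈ Ts

lemma RatioIn.mono {Rs Rs' : Finset ℂ} {u : Fin (m + 2) → ℂ} (h : RatioIn Rs u)
    (hsub : Rs ⊆ Rs') : RatioIn Rs' u := by
  intro h0
  rcases h h0 with h1 | h1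
  · exact Or.inl h1
  · exact Or.inr (hsub h1)

lemma EnteredIn.mono {Ts Ts' : Finset (Fin (m + 2))} {u : Fin (m + 2) → ℂ} (h : EnteredIn Ts u)
    (hsub : Ts ⊆ Ts') : EnteredIn Ts' u :=
  fun k hk hi hk0 => hsub (h k hk hi hk0)

lemma ratioIn_zero (Rs : Finset ℂ) : RatioIn Rs (0 : Fin (m + 2) → ℂ) := by
  intro h0
  exact absurd rfl h0

lemma enteredIn_zero (Ts : Finset (Fin (m + 2))) : EnteredIn Ts (0 : Fin (m + 2) → ℂ) := by
  intro k _ _ hk0
  exact absurd rfl hk0

lemma ratioIn_single (Rs : Finset ℂ) (k : Fin (m + 2)) :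
    RatioIn Rs (Pi.single k (1 : ℂ)) := by
  intro h0
  left
  have hk : k = 0 := by
    by_contra hne
    exact h0 (Pi.single_eq_of_ne (Ne.symm hne) _)
  subst hk
  have h1 : (Pi.single (0 : Fin (m + 2)) (1 : ℂ) : Fin (m + 2) → ℂ) 1 = 0 := by
    apply Pi.single_eq_of_ne
    intro h
    have := congrArg Fin.val h
    simp at this
  rw [h1, zero_div]

lemma enteredIn_single (Ts : Finset (Fin (m + 2))) (k : Fin (m + 2)) :
    EnteredIn Ts (Pi.single k (1 : ℂ)) := by
  intro k' _ hi hk0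
  exfalso
  obtain ⟨i, hik, hi0⟩ := hi
  have h1 : i = k := by
    by_contra hne
    exact hi0 (Pi.single_eq_of_ne hne _)
  have h2 : k' = k := by
    by_contra hne
    exact hk0 (Pi.single_eq_of_ne hne _)
  rw [h1, h2] at hik
  exact lt_irrefl _ hik

lemma ratioIn_smul {Rs : Finset ℂ} {u : Fin (m + 2) → ℂ} (h : RatioIn Rs u) (c : ℂ) :
    RatioIn Rs (c • u) := by
  intro h0
  have h0' : c * u 0 ≠ 0 := h0
  have hc : c ≠ 0 := left_ne_zero_of_mul h0'
  have hu : u 0 ≠ 0 := right_ne_zero_of_mul h0'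
  have e : (c • u) 1 / (c • u) 0 = u 1 / u 0 := by
    show c * u 1 / (c * u 0) = u 1 / u 0
    exact mul_div_mul_left _ _ hc
  rw [e]
  exact h hu

lemma enteredIn_smul {Ts : Finset (Fin (m + 2))} {u : Fin (m + 2) → ℂ} (h : EnteredIn Ts u)
    (c : ℂ) : EnteredIn Ts (c • u) := by
  intro k hk hi hk0
  have hk0' : c * u k ≠ 0 := hk0
  obtain ⟨i, hik, hi0⟩ := hi
  have hi0' : c * u i ≠ 0 := hi0
  exact h k hk ⟨i, hik, right_ne_zero_of_mul hi0'⟩ (right_ne_zero_of_mul hk0')

/-- The shape of a gate `h = u + σ v` at a variable `k` that newly enters. -/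
lemma new_shape {Ts : Finset (Fin (m + 2))} {u v h : Fin (m + 2) → ℂ} {σ : ℂ}
    (hu : EnteredIn Ts u) (hv : EnteredIn Ts v) (hh : ∀ i, h i = u i + σ * v i)
    {k : Fin (m + 2)} (hk : 2 ≤ k.val) (hi : ∃ i, i < k ∧ h i ≠ 0) (hk0 : h k ≠ 0)
    (hnot : k ∉ Ts) :
    ((∀ i, i < k → u i = 0) ∧ u k ≠ 0 ∧ (∃ i, i < k ∧ v i ≠ 0) ∧ v k = 0) ∨
      ((∀ i, i < k → v i = 0) ∧ v k ≠ 0 ∧ (∃ i, i < k ∧ u i ≠ 0) ∧ u k = 0) := by
  obtain ⟨i, hik, hi0⟩ := hi
  by_cases huk : u k = 0
  · -- then `v k ≠ 0`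
    have hvk : v k ≠ 0 := by
      intro hvk
      apply hk0
      rw [hh, huk, hvk]; simp
    right
    have hlow : ∀ i, i < k → v i = 0 := by
      intro i' hi'
      by_contra hne
      exact hnot (hv k hk ⟨i', hi', hne⟩ hvk)
    refine ⟨hlow, hvk, ⟨i, hik, ?_⟩, huk⟩
    intro hui
    apply hi0
    rw [hh, hui, hlow i hik]; simp
  · left
    have hlow : ∀ i, i < k → u i = 0 := by
      intro i' hi'
      by_contra hne
      exact hnot (hu k hk ⟨i', hi', hne⟩ huk)
    have hvi : v i ≠ 0 := by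
      intro hvi
      apply hi0
      rw [hh, hlow i hik, hvi]; simp
    refine ⟨hlow, huk, ⟨i, hik, hvi⟩, ?_⟩
    by_contra hvk
    exact hnot (hv k hk ⟨i, hik, hvi⟩ hvk)

/-- One gate `h = u + σ v` with `σ ≠ 0` costs at most one unit of potential. -/
lemma addlike_step {Rs : Finset ℂ} {Ts : Finset (Fin (m + 2))} {u v h : Fin (m + 2) → ℂ}
    {σ : ℂ} (hσ : σ ≠ 0)
    (hu1 : RatioIn Rs u) (hu2 : EnteredIn Ts u) (hv1 : RatioIn Rs v) (hv2 : EnteredIn Ts v)
    (hh : ∀ i, h i = u i + σ * v i) :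
    ∃ (Rs' : Finset ℂ) (Ts' : Finset (Fin (m + 2))), Rs ⊆ Rs' ∧ Ts ⊆ Ts' ∧
      Rs'.card + Ts'.card ≤ Rs.card + Ts.card + 1 ∧ RatioIn Rs' h ∧ EnteredIn Ts' h := by
  classical
  by_cases hnew : ∃ k : Fin (m + 2), 2 ≤ k.val ∧ (∃ i, i < k ∧ h i ≠ 0) ∧ h k ≠ 0 ∧ k ∉ Ts
  · obtain ⟨k, hk, hi, hk0, hnot⟩ := hnew
    have hshape := new_shape hu2 hv2 hh hk hi hk0 hnot
    have h0k : (0 : Fin (m + 2)) < k := by
      rw [Fin.lt_def, Fin.val_zero]; omega
    have h1k : (1 : Fin (m + 2)) < k := by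
      rw [Fin.lt_def, Fin.val_one]; omega
    refine ⟨Rs, insert k Ts, Finset.Subset.refl _, Finset.subset_insert _ _, ?_, ?_, ?_⟩
    · rw [Finset.card_insert_of_notMem hnot]; omega
    · -- the ratio is inherited from the other operand
      intro h0
      rcases hshape with ⟨hlow, -, -, -⟩ | ⟨hlow, -, -, -⟩
      · have e0 : h 0 = σ * v 0 := by rw [hh, hlow 0 h0k, zero_add]
        have e1 : h 1 = σ * v 1 := by rw [hh, hlow 1 h1k, zero_add]
        have hv0 : v 0 ≠ 0 := by
          intro hv0; apply h0; rw [e0, hv0, mul_zero]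
        rw [e0, e1, mul_div_mul_left _ _ hσ]
        exact hv1 hv0
      · have e0 : h 0 = u 0 := by rw [hh, hlow 0 h0k, mul_zero, add_zero]
        have e1 : h 1 = u 1 := by rw [hh, hlow 1 h1k, mul_zero, add_zero]
        rw [e0] at h0
        rw [e0, e1]
        exact hu1 h0
    · intro k' hk' hi' hk0'
      by_cases hmem : k' ∈ Ts
      · exact Finset.mem_insert_of_mem hmem
      · have hshape' := new_shape hu2 hv2 hh hk' hi' hk0' hmem
        have hkk : k' = k := by
          rcases hshape with ⟨a1, a2, ⟨ia, a3, a4⟩, a5⟩ | ⟨a1, a2, ⟨ia, a3, a4⟩, a5⟩ <;>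
          rcases hshape' with ⟨b1, b2, ⟨ib, b3, b4⟩, b5⟩ | ⟨b1, b2, ⟨ib, b3, b4⟩, b5⟩
          · -- both low at `u`
            rcases lt_trichotomy k' k with hlt | heq | hgt
            · exact absurd (a1 k' hlt) b2
            · exact heq
            · exact absurd (b1 k hgt) a2
          · -- `u` low at `k`, `v` low at `k'`
            exfalso
            have h1 : ¬ ia < k' := fun hlt => a4 (b1 ia hlt)
            have h2 : ¬ ib < k := fun hlt => b4 (a1 ib hlt)
            have h3 : k' ≤ ia := not_lt.mp h1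
            have h4 : k ≤ ib := not_lt.mp h2
            exact lt_irrefl k (lt_of_le_of_lt h4 (lt_of_lt_of_le b3 (le_trans h3 (le_of_lt a3))))
          · exfalso
            have h1 : ¬ ia < k' := fun hlt => a4 (b1 ia hlt)
            have h2 : ¬ ib < k := fun hlt => b4 (a1 ib hlt)
            have h3 : k' ≤ ia := not_lt.mp h1
            have h4 : k ≤ ib := not_lt.mp h2
            exact lt_irrefl k (lt_of_le_of_lt h4 (lt_of_lt_of_le b3 (le_trans h3 (le_of_lt a3))))
          · rcases lt_trichotomy k' k with hlt | heq | hgt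
            · exact absurd (a1 k' hlt) b2
            · exact heq
            · exact absurd (b1 k hgt) a2
        rw [hkk]
        exact Finset.mem_insert_self _ _
  · refine ⟨insert (h 1 / h 0) Rs, Ts, Finset.subset_insert _ _, Finset.Subset.refl _, ?_, ?_, ?_⟩
    · have := Finset.card_insert_le (h 1 / h 0) Rs
      omega
    · intro _
      exact Or.inr (Finset.mem_insert_self _ _)
    · intro k hk hi hk0
      by_contra hnot
      exact hnew ⟨k, hk, hi, hk0, hnot⟩

/-- The invariant carried along a circuit: `a` bounds the potential of the additive gates and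
`s + (m + 2)` bounds the size of a set spanning, over the rationals, all available forms. -/
def GoodSets (l : List (Fin (m + 2) → ℂ)) (a s : ℕ) : Prop :=
  ∃ (Rs : Finset ℂ) (Ts : Finset (Fin (m + 2))) (B : Finset (Fin (m + 2) → ℂ)),
    Rs.card + Ts.card ≤ a ∧ B.card ≤ s + (m + 2) ∧
    (∀ k, Pi.single k (1 : ℂ) ∈ Submodule.span ℚ (B : Set (Fin (m + 2) → ℂ))) ∧
    ∀ u ∈ l, RatioIn Rs u ∧ EnteredIn Ts u ∧
      u ∈ Submodule.span ℚ (B : Set (Fin (m + 2) → ℂ))

lemma avail_good {l : List (Fin (m + 2) → ℂ)} {Rs : Finset ℂ} {Ts : Finset (Fin (m + 2))}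
    {B : Finset (Fin (m + 2) → ℂ)}
    (hB : ∀ k, Pi.single k (1 : ℂ) ∈ Submodule.span ℚ (B : Set (Fin (m + 2) → ℂ)))
    (hl : ∀ u ∈ l, RatioIn Rs u ∧ EnteredIn Ts u ∧
      u ∈ Submodule.span ℚ (B : Set (Fin (m + 2) → ℂ)))
    {u : Fin (m + 2) → ℂ} (hu : Avail l u) :
    RatioIn Rs u ∧ EnteredIn Ts u ∧ u ∈ Submodule.span ℚ (B : Set (Fin (m + 2) → ℂ)) := by
  rcases hu with hu | hu | ⟨k, hu⟩
  · exact hl u hu
  · rw [hu]
    exact ⟨ratioIn_zero Rs, enteredIn_zero Ts, Submodule.zero_mem _⟩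
  · rw [hu]
    exact ⟨ratioIn_single Rs k, enteredIn_single Ts k, hB k⟩

theorem circuit_goodSets {l : List (Fin (m + 2) → ℂ)} (hl : LinCircuit (m + 2) l) :
    ∃ a s, a + s = l.length ∧ GoodSets l a s := by
  classical
  induction hl with
  | nil =>
    refine ⟨0, 0, rfl, ∅, ∅, Finset.univ.image (fun k => Pi.single k (1 : ℂ)), ?_, ?_, ?_, ?_⟩
    · simp
    · have := Finset.card_image_le (s := (Finset.univ : Finset (Fin (m + 2))))
        (f := fun k => (Pi.single k (1 : ℂ) : Fin (m + 2) → ℂ))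
      simpa using this
    · intro k
      apply Submodule.subset_span
      simp
    · intro u hu
      simp at hu
  | @add l u v _ hu hv ih =>
    obtain ⟨a, s, hlen, Rs, Ts, B, hc1, hc2, hB, hall⟩ := ih
    obtain ⟨hu1, hu2, hu3⟩ := avail_good hB hall hu
    obtain ⟨hv1, hv2, hv3⟩ := avail_good hB hall hv
    obtain ⟨Rs', Ts', hR, hT, hcard, hh1, hh2⟩ :=
      addlike_step (σ := 1) one_ne_zero hu1 hu2 hv1 hv2 (h := u + v) (by intro i; simp)
    refine ⟨a + 1, s, by simp [← hlen]; omega, Rs', Ts', B, by omega, hc2, hB, ?_⟩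
    intro w hw
    rcases List.mem_cons.mp hw with hw | hw
    · rw [hw]
      exact ⟨hh1, hh2, Submodule.add_mem _ hu3 hv3⟩
    · obtain ⟨w1, w2, w3⟩ := hall w hw
      exact ⟨w1.mono hR, w2.mono hT, w3⟩
  | @sub l u v _ hu hv ih =>
    obtain ⟨a, s, hlen, Rs, Ts, B, hc1, hc2, hB, hall⟩ := ih
    obtain ⟨hu1, hu2, hu3⟩ := avail_good hB hall hu
    obtain ⟨hv1, hv2, hv3⟩ := avail_good hB hall hv
    obtain ⟨Rs', Ts', hR, hT, hcard, hh1, hh2⟩ :=
      addlike_step (σ := -1) (by norm_num) hu1 hu2 hv1 hv2 (h := u - v)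
        (by intro i; simp [sub_eq_add_neg])
    refine ⟨a + 1, s, by simp [← hlen]; omega, Rs', Ts', B, by omega, hc2, hB, ?_⟩
    intro w hw
    rcases List.mem_cons.mp hw with hw | hw
    · rw [hw]
      exact ⟨hh1, hh2, Submodule.sub_mem _ hu3 hv3⟩
    · obtain ⟨w1, w2, w3⟩ := hall w hw
      exact ⟨w1.mono hR, w2.mono hT, w3⟩
  | @smul l u c _ hu ih =>
    obtain ⟨a, s, hlen, Rs, Ts, B, hc1, hc2, hB, hall⟩ := ih
    obtain ⟨hu1, hu2, hu3⟩ := avail_good hB hall hu
    have hsub : Submodule.span ℚ (B : Set (Fin (m + 2) → ℂ)) ≤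
        Submodule.span ℚ ((insert (c • u) B : Finset (Fin (m + 2) → ℂ)) : Set (Fin (m + 2) → ℂ)) := by
      apply Submodule.span_mono
      intro x hx
      exact Finset.mem_coe.mpr (Finset.mem_insert_of_mem (Finset.mem_coe.mp hx))
    refine ⟨a, s + 1, by simp [← hlen]; omega, Rs, Ts, insert (c • u) B, hc1, ?_, ?_, ?_⟩
    · have := Finset.card_insert_le (c • u) B
      omega
    · intro k
      exact hsub (hB k)
    · intro w hw
      rcases List.mem_cons.mp hw with hw | hw
      · rw [hw]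
        refine ⟨ratioIn_smul hu1 c, enteredIn_smul hu2 c, ?_⟩
        apply Submodule.subset_span
        exact Finset.mem_coe.mpr (Finset.mem_insert_self _ _)
      · obtain ⟨w1, w2, w3⟩ := hall w hw
        exact ⟨w1, w2, hsub w3⟩

end potentials

end Vale.Agent.Lib.Helper8
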