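import Vale.Agent.Lib.Helper8.InitialSums

/-!
A finite minimax step (by separation of convex sets), and the resulting distribution form of
the mean-square balancing theorem.
-/

namespace Vale.Agent.Lib.Helper8

open Finset

/-- If for all nonnegative weights some pure strategy `s` has weighted payoff at most `b` times
the total weight, then some mixed strategy has every coordinate payoff at most `b`. -/
theorem finite_minimax {S : Type*} [Fintype S] {N : ℕ} (n : S → Fin N → ℝ) (b : ℝ)
    (h : ∀ ρ : Fin N → ℝ, (∀ k, 0 ≤ ρ k) → ∃ s, ∑ k, ρ k * n s k ≤ b * ∑ k, ρ k) :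
    ∃ π : S → ℝ, (∀ s, 0 ≤ π s) ∧ ∑ s, π s = 1 ∧ ∀ k, ∑ s, π s * n s k ≤ b := by
  classical
  obtain ⟨L, hL⟩ : ∃ L : (S → ℝ) →ₗ[ℝ] (Fin N → ℝ), ∀ π k, L π k = ∑ s, π s * n s k := by
    refine ⟨{ toFun := fun π k => ∑ s, π s * n s k, map_add' := ?_, map_smul' := ?_ }, ?_⟩
    · intro x y; funext k; simp [add_mul, Finset.sum_add_distrib]
    · intro c x; funext k; simp [Finset.mul_sum, mul_assoc]
    · intro π k; rfl
  by_contra hcon
  have hKconv : Convex ℝ (L '' stdSimplex ℝ S) := (convex_stdSimplex ℝ S).linear_image L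
  have hKcomp : IsCompact (L '' stdSimplex ℝ S) :=
    (isCompact_stdSimplex ℝ S).image (LinearMap.continuous_of_finiteDimensional L)
  have hCconv : Convex ℝ {z : Fin N → ℝ | ∀ k, z k ≤ b} := by
    intro x hx y hy a c ha hc hac k
    have h1 := hx k
    have h2 := hy k
    simp only [Pi.add_apply, Pi.smul_apply, smul_eq_mul]
    have h3 : a * x k ≤ a * b := mul_le_mul_of_nonneg_left h1 ha
    have h4 : c * y k ≤ c * b := mul_le_mul_of_nonneg_left h2 hc
    have h5 : a * b + c * b = b := by rw [← add_mul, hac, one_mul]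
    linarith
  have hCclosed : IsClosed {z : Fin N → ℝ | ∀ k, z k ≤ b} := by
    have : {z : Fin N → ℝ | ∀ k, z k ≤ b} = ⋂ k, {z : Fin N → ℝ | z k ≤ b} := by
      ext z; simp
    rw [this]
    exact isClosed_iInter fun k => isClosed_le (continuous_apply k) continuous_const
  have hdisj : Disjoint (L '' stdSimplex ℝ S) {z : Fin N → ℝ | ∀ k, z k ≤ b} := by
    rw [Set.disjoint_left]
    rintro z ⟨π, hπ, rfl⟩ hzC
    refine hcon ⟨π, hπ.1, hπ.2, fun k => ?_⟩
    rw [← hL]
    exact hzC k
  obtain ⟨f, u, v, hfK, huv, hfC⟩ :=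
    geometric_hahn_banach_compact_closed hKconv hKcomp hCconv hCclosed hdisj
  -- the coordinates of the functional
  obtain ⟨e, he⟩ : ∃ e : Fin N → ℝ, e = fun k => f (fun j => if k = j then 1 else 0) := ⟨_, rfl⟩
  have hf : ∀ z : Fin N → ℝ, f z = ∑ k, z k * e k := by
    intro z
    have := (f : (Fin N → ℝ) →ₗ[ℝ] ℝ).pi_apply_eq_sum_univ z
    rw [he]
    simpa using this
  have hconst : (fun _ : Fin N => b) ∈ {z : Fin N → ℝ | ∀ k, z k ≤ b} := fun k => le_rfl
  have hvb : v < f (fun _ => b) := hfC _ hconst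
  have he0 : ∀ k, e k ≤ 0 := by
    intro k
    by_contra hk
    have hpos : 0 < e k := not_le.mp hk
    obtain ⟨t, ht⟩ : ∃ t : ℝ, t = (f (fun _ => b) - v) / e k + 1 := ⟨_, rfl⟩
    have ht0 : 0 ≤ t := by
      rw [ht]
      have : 0 ≤ (f (fun _ => b) - v) / e k := div_nonneg (by linarith) hpos.le
      linarith
    have hmem : (fun j => b - t * (if k = j then 1 else 0)) ∈
        {z : Fin N → ℝ | ∀ k, z k ≤ b} := by
      intro j
      by_cases hkj : k = j <;> simp [hkj, ht0]
    have h1 := hfC _ hmem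
    rw [hf] at h1 hvb
    have h2 : ∑ j, (b - t * (if k = j then 1 else 0)) * e j = ∑ j, b * e j - t * e k := by
      simp [sub_mul, Finset.sum_sub_distrib]
    rw [h2] at h1
    have h3 : t * e k = (∑ j, b * e j - v) + e k := by
      rw [ht, hf, add_mul, div_mul_cancel₀ _ hpos.ne', one_mul]
    linarith
  obtain ⟨s, hs⟩ := h (fun k => -e k) (fun k => by have := he0 k; linarith)
  have hsK : n s ∈ L '' stdSimplex ℝ S := by
    refine ⟨Pi.single s 1, single_mem_stdSimplex ℝ s, ?_⟩
    funext k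
    rw [hL]
    simp [Pi.single_apply]
  have h1 := hfK _ hsK
  rw [hf] at h1 hvb
  have h2 : ∑ k, -e k * n s k = -∑ k, n s k * e k := by
    rw [← Finset.sum_neg_distrib]
    refine Finset.sum_congr rfl fun k _ => by ring
  have h3 : b * ∑ k, -e k = -∑ k, b * e k := by
    rw [Finset.mul_sum, ← Finset.sum_neg_distrib]
    refine Finset.sum_congr rfl fun k _ => by ring
  rw [h2, h3] at hs
  linarith

/-- Distribution form: for unit-ball vectors `v i` in `d`-dimensional Euclidean space there is a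
probability distribution `π` on sign patterns under which every initial-segment sum has second
moment at most `d`. -/
theorem random_signing (d N : ℕ) (v : Fin N → EuclideanSpace ℝ (Fin d))
    (hv : ∀ i, ‖v i‖ ≤ 1) :
    ∃ π : (Fin N → Bool) → ℝ, (∀ s, 0 ≤ π s) ∧ ∑ s, π s = 1 ∧
      ∀ k, ∑ s, π s * ‖∑ i ∈ Finset.Iic k, (if s i then (1:ℝ) else -1) • v i‖ ^ 2 ≤ d := by
  classical
  apply finite_minimax
    (fun (s : Fin N → Bool) k => ‖∑ i ∈ Finset.Iic k, (if s i then (1:ℝ) else -1) • v i‖ ^ 2)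
  intro ρ hρ
  obtain ⟨ε, hε, hle⟩ := weighted_mean_square d N v hv ρ hρ
  refine ⟨fun i => decide (ε i = 1), ?_⟩
  have hsgn : ∀ i, (if decide (ε i = 1) = true then (1:ℝ) else -1) = ε i := by
    intro i
    rcases hε i with h | h
    · simp [h]
    · rw [h]
      norm_num
  simp only [hsgn]
  exact hle

end Vale.Agent.Lib.Helper8
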