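import Vale.Agent.Lib.Helper8.InitialSums

/-!
Mean-square form of the rearrangement problem for zero-sum families in the unit ball of
Euclidean space: some ordering has initial-segment sums whose mean square norm is at most the
dimension.  The proof transfers the signed statement `weighted_mean_square` to orderings.
-/

namespace Vale.Agent.Lib.Helper8

open Finset

section keys

variable {N : ℕ} {E : Type*} [NormedAddCommGroup E] [InnerProductSpace ℝ E]

/-- The ordering functional of a permutation, expressed through a key function which the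
permutation sorts. -/
lemma perm_sum_eq_key_sum (x : Fin N → E) (σ : Equiv.Perm (Fin N)) (κ : Fin N → ℕ)
    (hκ : StrictMono (κ ∘ σ)) :
    ∑ m, ‖∑ j ∈ Finset.Iic m, x (σ j)‖ ^ 2 =
      ∑ k, ‖∑ i ∈ univ.filter (fun i => κ i ≤ κ k), x i‖ ^ 2 := by
  classical
  rw [← Equiv.sum_comp σ (fun k => ‖∑ i ∈ univ.filter (fun i => κ i ≤ κ k), x i‖ ^ 2)]
  refine Finset.sum_congr rfl fun m _ => ?_
  congr 2
  refine Finset.sum_bij (fun j _ => σ j) ?_ ?_ ?_ ?_
  · intro j hj
    simp only [Finset.mem_Iic] at hj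
    simp only [Finset.mem_filter, Finset.mem_univ, true_and]
    exact hκ.monotone hj
  · intro a _ b _ h
    exact σ.injective h
  · intro i hi
    simp only [Finset.mem_filter, Finset.mem_univ, true_and] at hi
    refine ⟨σ.symm i, ?_, by simp⟩
    simp only [Finset.mem_Iic]
    have h1 : (κ ∘ σ) (σ.symm i) ≤ (κ ∘ σ) m := by simpa using hi
    exact hκ.le_iff_le.mp h1
  · intro j _
    rfl

lemma exists_perm_strictMono (κ : Fin N → ℕ) (hκ : Function.Injective κ) :
    ∃ σ : Equiv.Perm (Fin N), StrictMono (κ ∘ σ) :=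
  ⟨Tuple.sort κ, (Tuple.monotone_sort κ).strictMono_of_injective
    (hκ.comp (Tuple.sort κ).injective)⟩

/-- The key function attached to a predicate: members satisfying `p` come first in increasing
order, the others afterwards in decreasing order. -/
def keyOf (p : Fin N → Prop) [DecidablePred p] (i : Fin N) : ℕ :=
  if p i then (i : ℕ) else 2 * N - i

lemma keyOf_injective (p : Fin N → Prop) [DecidablePred p] : Function.Injective (keyOf p) := by
  intro i j h
  unfold keyOf at h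
  have hi := i.isLt
  have hj := j.isLt
  apply Fin.ext
  split_ifs at h <;> omega

lemma keyOf_sum_pos (p : Fin N → Prop) [DecidablePred p] (y : Fin N → E) (k : Fin N)
    (hk : p k) :
    ∑ i ∈ univ.filter (fun i => keyOf p i ≤ keyOf p k), y i =
      ∑ i ∈ Finset.Iic k, (if p i then y i else 0) := by
  classical
  rw [← Finset.sum_filter]
  refine Finset.sum_congr ?_ fun _ _ => rfl
  ext i
  simp only [Finset.mem_filter, Finset.mem_univ, true_and, Finset.mem_Iic]
  have hi := i.isLt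
  have hkN := k.isLt
  unfold keyOf
  rw [if_pos hk]
  by_cases hpi : p i
  · rw [if_pos hpi]
    constructor
    · intro h; exact ⟨Fin.le_def.mpr h, hpi⟩
    · intro h; exact Fin.le_def.mp h.1
  · rw [if_neg hpi]
    constructor
    · intro h; omega
    · intro h; exact absurd h.2 hpi

lemma keyOf_sum_neg (p : Fin N → Prop) [DecidablePred p] (y : Fin N → E) (k : Fin N)
    (hk : ¬ p k) :
    ∑ i ∈ univ.filter (fun i => keyOf p i ≤ keyOf p k), y i =
      ∑ i, y i - ∑ i ∈ Finset.Iio k, (if p i then 0 else y i) := by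
  classical
  rw [eq_sub_iff_add_eq]
  rw [Finset.sum_congr rfl (fun i (_ : i ∈ Finset.Iio k) => (ite_not (p i) (y i) 0).symm),
    ← Finset.sum_filter]
  have hset : (Finset.Iio k).filter (fun i => ¬ p i) =
      univ.filter (fun i => ¬ (keyOf p i ≤ keyOf p k)) := by
    ext i
    simp only [Finset.mem_filter, Finset.mem_univ, true_and, Finset.mem_Iio]
    have hi := i.isLt
    have hkN := k.isLt
    unfold keyOf
    rw [if_neg hk]
    by_cases hpi : p i
    · rw [if_pos hpi]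
      constructor
      · intro h; exact absurd hpi h.2
      · intro h; omega
    · rw [if_neg hpi]
      constructor
      · intro h
        have := Fin.lt_def.mp h.1
        omega
      · intro h
        refine ⟨Fin.lt_def.mpr ?_, hpi⟩
        omega
  rw [hset]
  exact Finset.sum_filter_add_sum_filter_not univ _ _

/-- Shifting the initial segments by one does not increase the total of the squared norms. -/
lemma shift_sum_le (z : Fin N → E) :
    ∑ k, ‖∑ i ∈ Finset.Iio k, z i‖ ^ 2 ≤ ∑ k, ‖∑ i ∈ Finset.Iic k, z i‖ ^ 2 := by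
  classical
  obtain ⟨h, hh⟩ : ∃ h : ℕ → ℝ, h = fun n =>
      ‖∑ i ∈ univ.filter (fun i : Fin N => (i : ℕ) < n), z i‖ ^ 2 := ⟨_, rfl⟩
  have e1 : ∀ k : Fin N, ‖∑ i ∈ Finset.Iio k, z i‖ ^ 2 = h k := by
    intro k
    rw [hh]
    congr 2
    refine Finset.sum_congr ?_ fun _ _ => rfl
    ext i
    simp only [Finset.mem_Iio, Finset.mem_filter, Finset.mem_univ, true_and, Fin.lt_def]
  have e2 : ∀ k : Fin N, ‖∑ i ∈ Finset.Iic k, z i‖ ^ 2 = h (k + 1) := by
    intro k
    rw [hh]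
    congr 2
    refine Finset.sum_congr ?_ fun _ _ => rfl
    ext i
    simp only [Finset.mem_Iic, Finset.mem_filter, Finset.mem_univ, true_and, Fin.le_def,
      Nat.lt_succ_iff]
  rw [Finset.sum_congr rfl fun k _ => e1 k, Finset.sum_congr rfl fun k _ => e2 k]
  rw [Fin.sum_univ_eq_sum_range h N, Fin.sum_univ_eq_sum_range (fun n => h (n + 1)) N]
  have h0 : h 0 = 0 := by
    rw [hh]
    simp
  have hN : 0 ≤ h N := by
    rw [hh]
    positivity
  have := Finset.sum_range_succ' h N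
  have := Finset.sum_range_succ h N
  linarith

lemma half_sq_le (a b : E) : ‖(1 / 2 : ℝ) • (a + b)‖ ^ 2 ≤ (‖a‖ ^ 2 + ‖b‖ ^ 2) / 2 := by
  rw [norm_smul, mul_pow]
  have h1 : ‖a + b‖ ^ 2 + ‖a - b‖ ^ 2 = 2 * ‖a‖ ^ 2 + 2 * ‖b‖ ^ 2 := by
    have := parallelogram_law_with_norm ℝ a b
    nlinarith [this]
  have h2 : 0 ≤ ‖a - b‖ ^ 2 := sq_nonneg _
  have h3 : ‖(1 / 2 : ℝ)‖ ^ 2 = 1 / 4 := by
    rw [Real.norm_eq_abs, sq_abs]; norm_num
  rw [h3]
  linarith

lemma half_sq_le' (a b : E) : ‖(1 / 2 : ℝ) • (a - b)‖ ^ 2 ≤ (‖a‖ ^ 2 + ‖b‖ ^ 2) / 2 := by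
  have := half_sq_le a (-b)
  rw [norm_neg] at this
  rwa [← sub_eq_add_neg] at this

end keys

/-- Mean-square rearrangement: a zero-sum family of `N` vectors in the unit ball of
`d`-dimensional Euclidean space can be ordered so that the squared norms of its initial-segment
sums add up to at most `d * N`. -/
theorem rearrange_mean_square (d N : ℕ) (x : Fin N → EuclideanSpace ℝ (Fin d))
    (hx : ∀ i, ‖x i‖ ≤ 1) (hsum : ∑ i, x i = 0) :
    ∃ σ : Equiv.Perm (Fin N), ∑ k, ‖∑ i ∈ Finset.Iic k, x (σ i)‖ ^ 2 ≤ d * N := by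
  classical
  obtain ⟨σ₀, -, hmin⟩ := Finset.exists_min_image (univ : Finset (Equiv.Perm (Fin N)))
    (fun σ => ∑ k, ‖∑ i ∈ Finset.Iic k, x (σ i)‖ ^ 2) ⟨1, Finset.mem_univ _⟩
  refine ⟨σ₀, ?_⟩
  obtain ⟨y, hy⟩ : ∃ y : Fin N → EuclideanSpace ℝ (Fin d), y = fun i => x (σ₀ i) := ⟨_, rfl⟩
  have hyn : ∀ i, ‖y i‖ ≤ 1 := by
    intro i; rw [hy]; exact hx _
  have hysum : ∑ i, y i = 0 := by
    rw [hy, ← hsum]
    exact Equiv.sum_comp σ₀ x
  have hF : ∑ k, ‖∑ i ∈ Finset.Iic k, x (σ₀ i)‖ ^ 2 = ∑ k, ‖∑ i ∈ Finset.Iic k, y i‖ ^ 2 := by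
    rw [hy]
  -- minimality in terms of keys
  have hkey : ∀ κ : Fin N → ℕ, Function.Injective κ →
      ∑ k, ‖∑ i ∈ Finset.Iic k, y i‖ ^ 2 ≤
        ∑ k, ‖∑ i ∈ univ.filter (fun i => κ i ≤ κ k), y i‖ ^ 2 := by
    intro κ hκ
    obtain ⟨τ, hτ⟩ := exists_perm_strictMono κ hκ
    rw [← perm_sum_eq_key_sum y τ κ hτ, ← hF]
    have := hmin (τ.trans σ₀) (Finset.mem_univ _)
    rw [hy]
    exact this
  obtain ⟨ε, hε, hεle⟩ := weighted_mean_square d N y hyn (fun _ => 1) (fun _ => zero_le_one)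
  simp only [one_mul, Finset.sum_const, Finset.card_univ, Fintype.card_fin, nsmul_eq_mul,
    mul_one] at hεle
  -- the four families of sums
  obtain ⟨S, hS⟩ : ∃ S : Fin N → EuclideanSpace ℝ (Fin d),
      S = fun k => ∑ i ∈ Finset.Iic k, y i := ⟨_, rfl⟩
  obtain ⟨T, hT⟩ : ∃ T : Fin N → EuclideanSpace ℝ (Fin d),
      T = fun k => ∑ i ∈ Finset.Iic k, ε i • y i := ⟨_, rfl⟩
  obtain ⟨S', hS'⟩ : ∃ S' : Fin N → EuclideanSpace ℝ (Fin d),
      S' = fun k => ∑ i ∈ Finset.Iio k, y i := ⟨_, rfl⟩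
  obtain ⟨T', hT'⟩ : ∃ T' : Fin N → EuclideanSpace ℝ (Fin d),
      T' = fun k => ∑ i ∈ Finset.Iio k, ε i • y i := ⟨_, rfl⟩
  have hFS : ∑ k, ‖∑ i ∈ Finset.Iic k, y i‖ ^ 2 = ∑ k, ‖S k‖ ^ 2 := by rw [hS]
  have hTle : ∑ k, ‖T k‖ ^ 2 ≤ d * N := by rw [hT]; exact hεle
  have hS'le : ∑ k, ‖S' k‖ ^ 2 ≤ ∑ k, ‖S k‖ ^ 2 := by
    rw [hS, hS']; exact shift_sum_le y
  have hT'le : ∑ k, ‖T' k‖ ^ 2 ≤ ∑ k, ‖T k‖ ^ 2 := by
    rw [hT, hT']; exact shift_sum_le (fun i => ε i • y i)
  -- indicator sums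
  have hne : ∀ i, ε i = 1 → ε i ≠ -1 := by
    intro i h1 h2; rw [h1] at h2; norm_num at h2
  have ind1 : ∀ s : Finset (Fin N), ∑ i ∈ s, (if ε i = 1 then y i else 0) =
      (1 / 2 : ℝ) • (∑ i ∈ s, y i + ∑ i ∈ s, ε i • y i) := by
    intro s
    rw [← Finset.sum_add_distrib, Finset.smul_sum]
    refine Finset.sum_congr rfl fun i _ => ?_
    rcases hε i with h | h
    · rw [if_pos h, h, one_smul, ← two_smul ℝ, smul_smul]; norm_num
    · have h' : ε i ≠ 1 := fun h1 => hne i h1 h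
      rw [if_neg h', h]; simp
  have ind2 : ∀ s : Finset (Fin N), ∑ i ∈ s, (if ε i = 1 then 0 else y i) =
      (1 / 2 : ℝ) • (∑ i ∈ s, y i - ∑ i ∈ s, ε i • y i) := by
    intro s
    rw [← Finset.sum_sub_distrib, Finset.smul_sum]
    refine Finset.sum_congr rfl fun i _ => ?_
    rcases hε i with h | h
    · rw [if_pos h, h]; simp
    · have h' : ε i ≠ 1 := fun h1 => hne i h1 h
      rw [if_neg h', h, neg_one_smul, sub_neg_eq_add, ← two_smul ℝ, smul_smul]; norm_num
  have ind3 : ∀ s : Finset (Fin N), ∑ i ∈ s, (if ε i = -1 then y i else 0) =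
      (1 / 2 : ℝ) • (∑ i ∈ s, y i - ∑ i ∈ s, ε i • y i) := by
    intro s
    rw [← ind2 s]
    refine Finset.sum_congr rfl fun i _ => ?_
    rcases hε i with h | h
    · rw [if_neg (hne i h), if_pos h]
    · have h' : ε i ≠ 1 := fun h1 => hne i h1 h
      rw [if_pos h, if_neg h']
  have ind4 : ∀ s : Finset (Fin N), ∑ i ∈ s, (if ε i = -1 then 0 else y i) =
      (1 / 2 : ℝ) • (∑ i ∈ s, y i + ∑ i ∈ s, ε i • y i) := by
    intro s
    rw [← ind1 s]
    refine Finset.sum_congr rfl fun i _ => ?_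
    rcases hε i with h | h
    · rw [if_neg (hne i h), if_pos h]
    · have h' : ε i ≠ 1 := fun h1 => hne i h1 h
      rw [if_pos h, if_neg h']
  -- the two orderings
  have hk1 := hkey (keyOf (fun i => ε i = 1)) (keyOf_injective _)
  have hk2 := hkey (keyOf (fun i => ε i = -1)) (keyOf_injective _)
  have hper : ∀ k : Fin N,
      ‖∑ i ∈ univ.filter (fun i => keyOf (fun i => ε i = 1) i ≤ keyOf (fun i => ε i = 1) k),
          y i‖ ^ 2 +
        ‖∑ i ∈ univ.filter (fun i => keyOf (fun i => ε i = -1) i ≤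
          keyOf (fun i => ε i = -1) k), y i‖ ^ 2 ≤
      (‖S k‖ ^ 2 + ‖T k‖ ^ 2 + ‖S' k‖ ^ 2 + ‖T' k‖ ^ 2) / 2 := by
    intro k
    rcases hε k with h | h
    · have hn : ¬ (ε k = -1) := hne k h
      rw [keyOf_sum_pos (fun i => ε i = 1) y k h, keyOf_sum_neg (fun i => ε i = -1) y k hn,
        hysum, zero_sub, norm_neg, ind1, ind4]
      have a1 := half_sq_le (S k) (T k)
      have a2 := half_sq_le (S' k) (T' k)
      rw [hS, hT] at a1
      rw [hS', hT'] at a2
      rw [hS, hT, hS', hT']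
      linarith
    · have hn : ¬ (ε k = 1) := fun h1 => hne k h1 h
      rw [keyOf_sum_neg (fun i => ε i = 1) y k hn, keyOf_sum_pos (fun i => ε i = -1) y k h,
        hysum, zero_sub, norm_neg, ind2, ind3]
      have a1 := half_sq_le' (S k) (T k)
      have a2 := half_sq_le' (S' k) (T' k)
      rw [hS, hT] at a1
      rw [hS', hT'] at a2
      rw [hS, hT, hS', hT']
      linarith
  have htot := Finset.sum_le_sum fun k (_ : k ∈ (univ : Finset (Fin N))) => hper k
  rw [Finset.sum_add_distrib, ← Finset.sum_div, Finset.sum_add_distrib, Finset.sum_add_distrib,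
    Finset.sum_add_distrib] at htot
  rw [hF, hFS]
  rw [hFS] at hk1 hk2
  linarith

end Vale.Agent.Lib.Helper8
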