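import Mathlib

/-!
Sign rounding in a real inner product space, by a pivoting induction.

Main result `hilbert_rounding`: if `u i`, `w a` are vectors of a real inner product space and
each `u p` agrees, against all `u j` with `p ≤ j`, with a combination of the `w a` whose
coefficient vector has Euclidean length at most one, then some choice of signs `ε i` gives
`‖∑ i, ε i • u i‖ ^ 2 ≤ ∑ a, ‖w a‖ ^ 2`.
-/

namespace Vale.Agent.Lib.Helper8

open Finset

variable {E : Type*} [NormedAddCommGroup E] [InnerProductSpace ℝ E] {N : ℕ}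

/-- The combination `∑ i, x i • u i`. -/
def comb (u : Fin N → E) (x : Fin N → ℝ) : E := ∑ i, x i • u i

/-- The coordinates of `x` that are strictly inside `(-1, 1)`. -/
noncomputable def alive (x : Fin N → ℝ) : Finset (Fin N) := univ.filter (fun i => |x i| < 1)

/-- The potential attached to a point of the cube. -/
noncomputable def pot (Γ D : Finset (Fin N) → ℝ) (x : Fin N → ℝ) : ℝ :=
  if h : (alive x).Nonempty then Γ (alive x) - (x ((alive x).min' h)) ^ 2 * D (alive x) else 0

lemma comb_add_smul (u : Fin N → E) (x y : Fin N → ℝ) (t : ℝ) :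
    comb u (fun i => x i + t * y i) = comb u x + t • comb u y := by
  unfold comb
  rw [Finset.smul_sum, ← Finset.sum_add_distrib]
  refine Finset.sum_congr rfl fun i _ => ?_
  rw [add_smul, mul_smul]

theorem abstract_rounding (u : Fin N → E)
    (y : Finset (Fin N) → Fin N → ℝ) (Γ D : Finset (Fin N) → ℝ)
    (hy_supp : ∀ A i, i ∉ A → y A i = 0)
    (hy_piv : ∀ A (hA : A.Nonempty), y A (A.min' hA) = 1)
    (hD : ∀ A, A.Nonempty → ‖comb u (y A)‖ ^ 2 ≤ D A)
    (hmono : ∀ A A' (hA : A.Nonempty), A' ⊆ A → A.min' hA ∈ A' → Γ A' ≤ Γ A ∧ D A ≤ D A')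
    (hstep : ∀ A A' (hA : A.Nonempty), A' ⊆ A.erase (A.min' hA) → Γ A' + D A ≤ Γ A)
    (hΓ0 : 0 ≤ Γ ∅)
    (x : Fin N → ℝ) (hx : ∀ i, |x i| ≤ 1) :
    ∃ ε : Fin N → ℝ, (∀ i, ε i = 1 ∨ ε i = -1) ∧
      ‖comb u ε‖ ^ 2 ≤ ‖comb u x‖ ^ 2 + pot Γ D x := by
  classical
  suffices H : ∀ n (x : Fin N → ℝ), (∀ i, |x i| ≤ 1) → (alive x).card = n →
      ∃ ε : Fin N → ℝ, (∀ i, ε i = 1 ∨ ε i = -1) ∧
        ‖comb u ε‖ ^ 2 ≤ ‖comb u x‖ ^ 2 + pot Γ D x from H _ x hx rfl
  intro n
  induction n using Nat.strong_induction_on with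
  | _ n ih =>
    intro x hx hn
    by_cases hA : (alive x).Nonempty
    · -- the pivot
      have hpA : (alive x).min' hA ∈ alive x := Finset.min'_mem _ hA
      have hDA : ‖comb u (y (alive x))‖ ^ 2 ≤ D (alive x) := hD _ hA
      have hD0 : 0 ≤ D (alive x) := le_trans (sq_nonneg _) hDA
      have hyp : y (alive x) ((alive x).min' hA) = 1 := hy_piv _ hA
      have hxp : |x ((alive x).min' hA)| < 1 := by
        have := hpA
        simp only [alive, mem_filter, mem_univ, true_and] at this
        exact this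
      -- abbreviations
      obtain ⟨A, hAdef⟩ : ∃ A, A = alive x := ⟨_, rfl⟩
      obtain ⟨p, hpdef⟩ : ∃ p, p = (alive x).min' hA := ⟨_, rfl⟩
      obtain ⟨g, hgdef⟩ : ∃ g, g = comb u (y (alive x)) := ⟨_, rfl⟩
      rw [← hpdef] at hpA hyp hxp
      rw [← hgdef] at hDA
      -- the slope
      obtain ⟨m, hmdef⟩ : ∃ m : ℝ, m = 2 * inner ℝ (comb u x) g - 2 * x p * D (alive x) := ⟨_, rfl⟩
      obtain ⟨σ, hσ, hσm⟩ : ∃ σ : ℝ, (σ = 1 ∨ σ = -1) ∧ σ * m ≤ 0 := by
        by_cases h0 : m ≤ 0
        · exact ⟨1, Or.inl rfl, by simpa using h0⟩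
        · exact ⟨-1, Or.inr rfl, by nlinarith [not_le.mp h0]⟩
      -- the direction and the step function
      obtain ⟨t, htdef⟩ : ∃ t : Fin N → ℝ, t = fun i => σ * y (alive x) i := ⟨_, rfl⟩
      have htp : t p = σ := by rw [htdef]; simp [hyp]
      have ht0 : ∀ i, i ∉ alive x → t i = 0 := by
        intro i hi; rw [htdef]; simp [hy_supp _ i hi]
      obtain ⟨f, hfdef⟩ : ∃ f : Fin N → ℝ, f = fun i =>
          if 0 < t i then (1 - x i) / t i else if t i < 0 then (-1 - x i) / t i else 2 := ⟨_, rfl⟩
      have hxi : ∀ i ∈ alive x, |x i| < 1 := by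
        intro i hi
        simpa only [alive, mem_filter, mem_univ, true_and] using hi
      have hfpos : ∀ i ∈ alive x, 0 < f i := by
        intro i hi
        have h1 := abs_lt.mp (hxi i hi)
        rw [hfdef]
        by_cases hp : 0 < t i
        · simp only [hp, if_true]
          exact div_pos (by linarith) hp
        · by_cases hn' : t i < 0
          · simp only [hp, hn', if_true, if_false]
            exact div_pos_of_neg_of_neg (by linarith) hn'
          · simp only [hp, hn', if_false]; norm_num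
      have hfp : f p < 2 := by
        have h1 := abs_lt.mp hxp
        rw [hfdef]
        beta_reduce
        rcases hσ with h | h
        · have h2 : (0:ℝ) < t p := by rw [htp, h]; norm_num
          rw [if_pos h2, htp, h, div_one]
          linarith
        · have h2 : ¬ (0:ℝ) < t p := by rw [htp, h]; norm_num
          have h3 : t p < 0 := by rw [htp, h]; norm_num
          rw [if_neg h2, if_pos h3, htp, h]
          have h4 : (-1 - x p) / (-1 : ℝ) = 1 + x p := by ring
          rw [h4]
          linarith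
      obtain ⟨s, hsdef⟩ : ∃ s : ℝ, s = (alive x).inf' hA f := ⟨_, rfl⟩
      have hspos : 0 < s := by
        rw [hsdef, Finset.lt_inf'_iff]; exact hfpos
      have hsle : ∀ i ∈ alive x, s ≤ f i := by
        intro i hi; rw [hsdef]; exact Finset.inf'_le f hi
      obtain ⟨i0, hi0A, hi0⟩ := Finset.exists_mem_eq_inf' hA f
      rw [← hsdef] at hi0
      have hsp : s < 2 := lt_of_le_of_lt (hsle p hpA) hfp
      -- the new point
      obtain ⟨x', hx'def⟩ : ∃ x' : Fin N → ℝ, x' = fun i => x i + s * t i := ⟨_, rfl⟩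
      have hx'le : ∀ i, |x' i| ≤ 1 := by
        intro i
        rw [hx'def]
        by_cases hi : i ∈ alive x
        · have h1 := abs_lt.mp (hxi i hi)
          have h2 := hsle i hi
          rw [hfdef] at h2
          rw [abs_le]
          by_cases hp : 0 < t i
          · simp only [hp, if_true] at h2
            have h3 : s * t i ≤ 1 - x i := by
              have := mul_le_mul_of_nonneg_right h2 hp.le
              rwa [div_mul_cancel₀ _ hp.ne'] at this
            have h4 : 0 ≤ s * t i := mul_nonneg hspos.le hp.le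
            constructor <;> linarith
          · by_cases hn' : t i < 0
            · simp only [hp, hn', if_true, if_false] at h2
              have h3 : -1 - x i ≤ s * t i := by
                have := mul_le_mul_of_nonpos_right h2 hn'.le
                rwa [div_mul_cancel₀ _ hn'.ne] at this
              have h4 : s * t i ≤ 0 := mul_nonpos_of_nonneg_of_nonpos hspos.le hn'.le
              constructor <;> linarith
            · have h0 : t i = 0 := le_antisymm (not_lt.mp hp) (not_lt.mp hn')
              simp only [h0, mul_zero, add_zero]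
              constructor <;> linarith
        · simp only [ht0 i hi, mul_zero, add_zero]
          exact hx i
      have hsub : alive x' ⊆ alive x := by
        intro i hi
        by_contra hni
        have h1 : x' i = x i := by rw [hx'def]; simp [ht0 i hni]
        simp only [alive, mem_filter, mem_univ, true_and] at hi hni
        rw [h1] at hi
        exact hni hi
      have hi0' : i0 ∉ alive x' := by
        intro hi
        simp only [alive, mem_filter, mem_univ, true_and] at hi
        have hlt : f i0 < 2 := by rw [← hi0]; exact hsp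
        rw [hx'def] at hi
        rw [hfdef] at hlt hi0
        by_cases hp : 0 < t i0
        · simp only [hp, if_true] at hi0
          have : s * t i0 = 1 - x i0 := by rw [hi0, div_mul_cancel₀ _ hp.ne']
          simp only [this] at hi
          have : x i0 + (1 - x i0) = 1 := by ring
          rw [this] at hi
          simp at hi
        · by_cases hn' : t i0 < 0
          · simp only [hp, hn', if_true, if_false] at hi0
            have : s * t i0 = -1 - x i0 := by rw [hi0, div_mul_cancel₀ _ hn'.ne]
            simp only [this] at hi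
            have : x i0 + (-1 - x i0) = -1 := by ring
            rw [this] at hi
            simp at hi
          · simp only [hp, hn', if_false] at hlt
            exact lt_irrefl _ hlt
      have hcard : (alive x').card < n := by
        rw [← hn]
        apply Finset.card_lt_card
        refine ⟨hsub, fun h => hi0' (h hi0A)⟩
      obtain ⟨ε, hε, hεle⟩ := ih _ hcard x' hx'le rfl
      refine ⟨ε, hε, le_trans hεle ?_⟩
      -- the affine computation
      have hcomb : comb u x' = comb u x + (s * σ) • g := by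
        rw [hx'def, hgdef, htdef]
        have := comb_add_smul u x (y (alive x)) (s * σ)
        rw [← this]
        congr 1
        funext i
        ring
      have hx'p : x' p = x p + s * σ := by rw [hx'def]; simp [htp]
      have hσ2 : σ ^ 2 = 1 := by rcases hσ with h | h <;> rw [h] <;> norm_num
      have key1 : ‖comb u x'‖ ^ 2 - (x' p) ^ 2 * D (alive x) ≤
          ‖comb u x‖ ^ 2 - (x p) ^ 2 * D (alive x) := by
        have hn2 : ‖comb u x + (s * σ) • g‖ ^ 2 =
            ‖comb u x‖ ^ 2 + 2 * (s * σ) * inner ℝ (comb u x) g + s ^ 2 * ‖g‖ ^ 2 := by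
          rw [norm_add_sq_real, inner_smul_right, norm_smul, mul_pow, Real.norm_eq_abs, sq_abs,
            mul_pow, hσ2]
          ring
        rw [hcomb, hx'p, hn2]
        have e2 : s * (σ * m) ≤ 0 := mul_nonpos_of_nonneg_of_nonpos hspos.le hσm
        have e3 : s ^ 2 * ‖g‖ ^ 2 ≤ s ^ 2 * D (alive x) :=
          mul_le_mul_of_nonneg_left hDA (sq_nonneg _)
        have e4 : (x p + s * σ) ^ 2 * D (alive x) =
            (x p) ^ 2 * D (alive x) + 2 * x p * (s * σ) * D (alive x) + s ^ 2 * D (alive x) := by
          have : (x p + s * σ) ^ 2 = (x p) ^ 2 + 2 * x p * (s * σ) + s ^ 2 * σ ^ 2 := by ring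
          rw [this, hσ2]; ring
        rw [hmdef] at e2
        rw [e4]
        have e5 : s * (σ * (2 * inner ℝ (comb u x) g - 2 * x p * D (alive x))) =
            2 * (s * σ) * inner ℝ (comb u x) g - 2 * x p * (s * σ) * D (alive x) := by ring
        rw [e5] at e2
        linarith
      -- the potential at the new point
      have key2 : pot Γ D x' ≤ Γ (alive x) - (x' p) ^ 2 * D (alive x) := by
        unfold pot
        by_cases hA' : (alive x').Nonempty
        · rw [dif_pos hA']
          by_cases hpA' : p ∈ alive x'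
          · have hmin : (alive x').min' hA' = p := by
              apply le_antisymm
              · exact Finset.min'_le _ _ hpA'
              · rw [hpdef]
                exact Finset.min'_le _ _ (hsub (Finset.min'_mem _ hA'))
            rw [hmin]
            have hpA'' : (alive x).min' hA ∈ alive x' := by rw [← hpdef]; exact hpA'
            obtain ⟨h1, h2⟩ := hmono (alive x) (alive x') hA hsub hpA''
            have h3 : (x' p) ^ 2 * D (alive x) ≤ (x' p) ^ 2 * D (alive x') :=
              mul_le_mul_of_nonneg_left h2 (sq_nonneg _)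
            linarith
          · have hsq : (x' p) ^ 2 = 1 := by
              have h1 : ¬ |x' p| < 1 := by
                intro h
                exact hpA' (by simp only [alive, mem_filter, mem_univ, true_and]; exact h)
              have h2 : |x' p| = 1 := le_antisymm (hx'le p) (not_lt.mp h1)
              rw [← sq_abs, h2]; norm_num
            have hsub' : alive x' ⊆ (alive x).erase ((alive x).min' hA) := by
              intro i hi
              rw [Finset.mem_erase]
              refine ⟨fun h => hpA' ?_, hsub hi⟩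
              rw [hpdef, ← h]; exact hi
            have h1 := hstep (alive x) (alive x') hA hsub'
            have h2 : 0 ≤ D (alive x') := le_trans (sq_nonneg _) (hD _ hA')
            have h3 : 0 ≤ (x' ((alive x').min' hA')) ^ 2 * D (alive x') :=
              mul_nonneg (sq_nonneg _) h2
            rw [hsq]
            linarith
        · rw [dif_neg hA']
          have hemp : alive x' = ∅ := Finset.not_nonempty_iff_eq_empty.mp hA'
          have hpA' : p ∉ alive x' := by rw [hemp]; simp
          have hsq : (x' p) ^ 2 = 1 := by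
            have h1 : ¬ |x' p| < 1 := by
              intro h
              exact hpA' (by simp only [alive, mem_filter, mem_univ, true_and]; exact h)
            have h2 : |x' p| = 1 := le_antisymm (hx'le p) (not_lt.mp h1)
            rw [← sq_abs, h2]; norm_num
          have h1 := hstep (alive x) ∅ hA (Finset.empty_subset _)
          rw [hsq]
          linarith
      have key3 : pot Γ D x = Γ (alive x) - (x p) ^ 2 * D (alive x) := by
        unfold pot
        rw [dif_pos hA, hpdef]
      rw [key3]
      linarith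
    · -- no coordinate is alive: `x` is already a sign vector
      refine ⟨x, fun i => ?_, ?_⟩
      · have h1 : ¬ |x i| < 1 := by
          intro h
          exact hA ⟨i, by simp only [alive, mem_filter, mem_univ, true_and]; exact h⟩
        have h2 : |x i| = 1 := le_antisymm (hx i) (not_lt.mp h1)
        rcases abs_eq (by norm_num : (0:ℝ) ≤ 1) |>.mp h2 with h | h
        · exact Or.inl h
        · exact Or.inr h
      · unfold pot
        rw [dif_neg hA]
        simp

/-! ### Projections onto spans of subfamilies -/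

/-- The family `u` with the members outside `B` replaced by zero. -/
def restr (u : Fin N → E) (B : Finset (Fin N)) : Fin N → E :=
  fun i => if i ∈ B then u i else 0

/-- The span of the members of `u` indexed by `B`. -/
def spanOn (u : Fin N → E) (B : Finset (Fin N)) : Submodule ℝ E :=
  Submodule.span ℝ (Set.range (restr u B))

instance spanOn_finiteDimensional (u : Fin N → E) (B : Finset (Fin N)) :
    FiniteDimensional ℝ (spanOn u B) :=
  FiniteDimensional.span_of_finite ℝ (Set.finite_range _)

/-- The orthogonal projection of `z` onto `spanOn u B`. -/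
noncomputable def projOn (u : Fin N → E) (B : Finset (Fin N)) (z : E) : E :=
  (spanOn u B).starProjection z

lemma mem_spanOn_of_mem (u : Fin N → E) {B : Finset (Fin N)} {i : Fin N} (hi : i ∈ B) :
    u i ∈ spanOn u B := by
  apply Submodule.subset_span
  exact ⟨i, by simp [restr, hi]⟩

lemma spanOn_mono (u : Fin N → E) {B B' : Finset (Fin N)} (h : B ⊆ B') :
    spanOn u B ≤ spanOn u B' := by
  apply Submodule.span_le.mpr
  rintro _ ⟨i, rfl⟩
  by_cases hi : i ∈ B
  · simp only [restr, hi, if_true]
    exact mem_spanOn_of_mem u (h hi)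
  · simp only [restr, hi, if_false]
    exact Submodule.zero_mem _

lemma projOn_mem (u : Fin N → E) (B : Finset (Fin N)) (z : E) : projOn u B z ∈ spanOn u B :=
  Submodule.starProjection_apply_mem _ _

lemma projOn_inner (u : Fin N → E) (B : Finset (Fin N)) (z : E) {h : E} (hh : h ∈ spanOn u B) :
    inner ℝ (z - projOn u B z) h = 0 :=
  Submodule.starProjection_inner_eq_zero _ _ hh

lemma exists_coeff (u : Fin N → E) (B : Finset (Fin N)) {h : E} (hh : h ∈ spanOn u B) :
    ∃ c : Fin N → ℝ, (∀ i, i ∉ B → c i = 0) ∧ ∑ i, c i • u i = h := by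
  obtain ⟨c, hc⟩ := (Submodule.mem_span_range_iff_exists_fun ℝ).mp hh
  refine ⟨fun i => if i ∈ B then c i else 0, fun i hi => by simp [hi], ?_⟩
  rw [← hc]
  refine Finset.sum_congr rfl fun i _ => ?_
  by_cases hi : i ∈ B <;> simp [restr, hi]

lemma inner_spanOn_eq_zero (u : Fin N → E) (B : Finset (Fin N)) (z : E)
    (hz : ∀ i ∈ B, inner ℝ z (u i) = 0) {h : E} (hh : h ∈ spanOn u B) : inner ℝ z h = 0 := by
  obtain ⟨c, hc0, hc⟩ := exists_coeff u B hh
  rw [← hc, inner_sum]
  refine Finset.sum_eq_zero fun i _ => ?_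
  rw [inner_smul_right]
  by_cases hi : i ∈ B
  · rw [hz i hi, mul_zero]
  · rw [hc0 i hi, zero_mul]

/-- The projection is a nearest point (squared form). -/
lemma norm_sub_projOn_sq_le (u : Fin N → E) (B : Finset (Fin N)) (z : E) {h : E}
    (hh : h ∈ spanOn u B) : ‖z - projOn u B z‖ ^ 2 ≤ ‖z - h‖ ^ 2 := by
  have h1 : z - h = (z - projOn u B z) + (projOn u B z - h) := by abel
  have h2 : inner ℝ (z - projOn u B z) (projOn u B z - h) = 0 :=
    projOn_inner u B z (Submodule.sub_mem _ (projOn_mem u B z) hh)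
  rw [h1, norm_add_sq_real, h2]
  nlinarith [sq_nonneg ‖projOn u B z - h‖]

lemma inner_sq_le_projOn (u : Fin N → E) (B : Finset (Fin N)) (z : E) {h : E}
    (hh : h ∈ spanOn u B) : (inner ℝ z h) ^ 2 ≤ ‖projOn u B z‖ ^ 2 * ‖h‖ ^ 2 := by
  have h1 : inner ℝ z h = inner ℝ (projOn u B z) h := by
    have := projOn_inner u B z hh
    rw [inner_sub_left] at this
    linarith
  rw [h1, ← mul_pow]
  have h2 := abs_real_inner_le_norm (projOn u B z) h
  have h3 : 0 ≤ ‖projOn u B z‖ * ‖h‖ := mul_nonneg (norm_nonneg _) (norm_nonneg _)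
  rw [← sq_abs (inner ℝ (projOn u B z) h)]
  exact pow_le_pow_left₀ (abs_nonneg _) h2 2

lemma inner_self_projOn (u : Fin N → E) (B : Finset (Fin N)) (z : E) :
    inner ℝ z (projOn u B z) = ‖projOn u B z‖ ^ 2 := by
  have := projOn_inner u B z (projOn_mem u B z)
  rw [inner_sub_left, real_inner_self_eq_norm_sq] at this
  linarith

lemma projOn_sq_mono (u : Fin N → E) {B B' : Finset (Fin N)} (h : B' ⊆ B) (z : E) :
    ‖projOn u B' z‖ ^ 2 ≤ ‖projOn u B z‖ ^ 2 := by
  have h1 := inner_sq_le_projOn u B z (spanOn_mono u h (projOn_mem u B' z))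
  rw [inner_self_projOn] at h1
  by_cases h0 : ‖projOn u B' z‖ ^ 2 = 0
  · rw [h0]; positivity
  · have hpos : 0 < ‖projOn u B' z‖ ^ 2 := lt_of_le_of_ne (sq_nonneg _) (Ne.symm h0)
    have h2 : ‖projOn u B' z‖ ^ 2 * ‖projOn u B' z‖ ^ 2 ≤
        ‖projOn u B z‖ ^ 2 * ‖projOn u B' z‖ ^ 2 := by
      calc ‖projOn u B' z‖ ^ 2 * ‖projOn u B' z‖ ^ 2 = (‖projOn u B' z‖ ^ 2) ^ 2 := by ring
        _ ≤ ‖projOn u B z‖ ^ 2 * ‖projOn u B' z‖ ^ 2 := h1
    exact le_of_mul_le_mul_right h2 hpos

lemma projOn_sq_le (u : Fin N → E) (B : Finset (Fin N)) (z : E) :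
    ‖projOn u B z‖ ^ 2 ≤ ‖z‖ ^ 2 := by
  have h1 : z = (z - projOn u B z) + projOn u B z := by abel
  have h2 := projOn_inner u B z (projOn_mem u B z)
  have h3 : ‖z‖ ^ 2 = ‖z - projOn u B z‖ ^ 2 + ‖projOn u B z‖ ^ 2 := by
    conv_lhs => rw [h1]
    rw [norm_add_sq_real, h2]; ring
  nlinarith [sq_nonneg ‖z - projOn u B z‖]

/-- The residual of `u p` after projecting onto the span of the other members of `A`. -/
noncomputable def resid (u : Fin N → E) (A : Finset (Fin N)) (p : Fin N) : E :=
  u p - projOn u (A.erase p) (u p)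

lemma exists_dir (u : Fin N → E) (A : Finset (Fin N)) (p : Fin N) (hp : p ∈ A) :
    ∃ y : Fin N → ℝ, (∀ i, i ∉ A → y i = 0) ∧ y p = 1 ∧ comb u y = resid u A p := by
  obtain ⟨c, hc0, hc⟩ := exists_coeff u (A.erase p) (projOn_mem u (A.erase p) (u p))
  have hcp : c p = 0 := hc0 p (by simp)
  refine ⟨fun i => (if i = p then 1 else 0) - c i, fun i hi => ?_, ?_, ?_⟩
  · have h1 : i ≠ p := fun h => hi (h ▸ hp)
    have h2 : i ∉ A.erase p := fun h => hi (Finset.mem_of_mem_erase h)
    simp [h1, hc0 i h2]
  · simp [hcp]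
  · unfold comb resid
    rw [← hc]
    simp only [sub_smul, Finset.sum_sub_distrib]
    congr 1
    simp

/-! ### The potentials and the main rounding theorem -/

/-- The direction attached to a set of alive coordinates. -/
noncomputable def dirFun (u : Fin N → E) (A : Finset (Fin N)) : Fin N → ℝ :=
  if hA : A.Nonempty then
    Classical.choose (exists_dir u A (A.min' hA) (Finset.min'_mem A hA))
  else 0

/-- The squared length of the residual of the pivot. -/
noncomputable def dFun (u : Fin N → E) (A : Finset (Fin N)) : ℝ :=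
  if hA : A.Nonempty then ‖resid u A (A.min' hA)‖ ^ 2 else 0

/-- The potential: total squared length of the projections of the `w a`. -/
noncomputable def gamFun {d : ℕ} (u : Fin N → E) (w : Fin d → E) (A : Finset (Fin N)) : ℝ :=
  ∑ a, ‖projOn u A (w a)‖ ^ 2

lemma dirFun_spec (u : Fin N → E) (A : Finset (Fin N)) (hA : A.Nonempty) :
    (∀ i, i ∉ A → dirFun u A i = 0) ∧ dirFun u A (A.min' hA) = 1 ∧
      comb u (dirFun u A) = resid u A (A.min' hA) := by
  unfold dirFun
  rw [dif_pos hA]
  exact Classical.choose_spec (exists_dir u A (A.min' hA) (Finset.min'_mem A hA))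

lemma gamFun_mono {d : ℕ} (u : Fin N → E) (w : Fin d → E) {A A' : Finset (Fin N)}
    (h : A' ⊆ A) : gamFun u w A' ≤ gamFun u w A :=
  Finset.sum_le_sum fun a _ => projOn_sq_mono u h (w a)

lemma gam_step {d : ℕ} (u : Fin N → E) (w : Fin d → E) (c : Fin N → Fin d → ℝ)
    (hc : ∀ p, ∑ a, (c p a) ^ 2 ≤ 1)
    (horth : ∀ p j, p ≤ j → inner ℝ (∑ a, c p a • w a - u p) (u j) = 0)
    (A A' : Finset (Fin N)) (hA : A.Nonempty) (hsub : A' ⊆ A.erase (A.min' hA)) :
    gamFun u w A' + ‖resid u A (A.min' hA)‖ ^ 2 ≤ gamFun u w A := by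
  obtain ⟨p, hpdef⟩ : ∃ p, p = A.min' hA := ⟨_, rfl⟩
  rw [← hpdef] at hsub ⊢
  have hpA : p ∈ A := by rw [hpdef]; exact Finset.min'_mem A hA
  have hsubA : A' ⊆ A := fun i hi => Finset.mem_of_mem_erase (hsub hi)
  obtain ⟨g, hgdef⟩ : ∃ g, g = u p - projOn u A' (u p) := ⟨_, rfl⟩
  have hres : ‖resid u A p‖ ^ 2 ≤ ‖g‖ ^ 2 := by
    rw [hgdef]
    exact norm_sub_projOn_sq_le u (A.erase p) (u p) (spanOn_mono u hsub (projOn_mem u A' (u p)))
  have hgmem : g ∈ spanOn u A := by
    rw [hgdef]
    exact Submodule.sub_mem _ (mem_spanOn_of_mem u hpA)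
      (spanOn_mono u hsubA (projOn_mem u A' (u p)))
  have hgorth : ∀ h ∈ spanOn u A', inner ℝ g h = 0 := by
    intro h hh; rw [hgdef]; exact projOn_inner u A' (u p) hh
  by_cases hg0 : ‖g‖ ^ 2 = 0
  · have := gamFun_mono u w hsubA
    linarith
  · have hgpos : 0 < ‖g‖ ^ 2 := lt_of_le_of_ne (sq_nonneg _) (Ne.symm hg0)
    -- the estimate for each `w a`
    have hper : ∀ a, ‖projOn u A' (w a)‖ ^ 2 + (inner ℝ (w a) g) ^ 2 / ‖g‖ ^ 2 ≤
        ‖projOn u A (w a)‖ ^ 2 := by
      intro a
      obtain ⟨q, hqdef⟩ : ∃ q, q = projOn u A' (w a) := ⟨_, rfl⟩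
      obtain ⟨t, htdef⟩ : ∃ t : ℝ, t = inner ℝ (w a) g / ‖g‖ ^ 2 := ⟨_, rfl⟩
      have hqmem : q ∈ spanOn u A' := by rw [hqdef]; exact projOn_mem u A' (w a)
      have hh : q + t • g ∈ spanOn u A :=
        Submodule.add_mem _ (spanOn_mono u hsubA hqmem) (Submodule.smul_mem _ _ hgmem)
      have hqg : inner ℝ q g = 0 := by rw [real_inner_comm]; exact hgorth q hqmem
      have hwq : inner ℝ (w a) q = ‖q‖ ^ 2 := by rw [hqdef]; exact inner_self_projOn u A' (w a)
      have htg : t * ‖g‖ ^ 2 = inner ℝ (w a) g := by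
        rw [htdef, div_mul_cancel₀ _ hg0]
      have hn1 : inner ℝ (w a) (q + t • g) = ‖q‖ ^ 2 + (inner ℝ (w a) g) ^ 2 / ‖g‖ ^ 2 := by
        rw [inner_add_right, inner_smul_right, hwq, htdef]
        ring
      have hn2 : ‖q + t • g‖ ^ 2 = ‖q‖ ^ 2 + (inner ℝ (w a) g) ^ 2 / ‖g‖ ^ 2 := by
        rw [norm_add_sq_real, inner_smul_right, hqg, norm_smul, mul_pow, Real.norm_eq_abs,
          sq_abs, htdef]
        field_simp
        ring
      have h1 := inner_sq_le_projOn u A (w a) hh
      rw [hn1, hn2] at h1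
      rw [← hqdef]
      obtain ⟨n, hndef⟩ : ∃ n : ℝ, n = ‖q‖ ^ 2 + (inner ℝ (w a) g) ^ 2 / ‖g‖ ^ 2 := ⟨_, rfl⟩
      rw [← hndef] at h1 ⊢
      have hn0 : 0 ≤ n := by rw [hndef]; positivity
      by_cases hnz : n = 0
      · rw [hnz]; positivity
      · have hnpos : 0 < n := lt_of_le_of_ne hn0 (Ne.symm hnz)
        have h2 : n * n ≤ ‖projOn u A (w a)‖ ^ 2 * n := by
          calc n * n = n ^ 2 := by ring
            _ ≤ ‖projOn u A (w a)‖ ^ 2 * n := h1
        exact le_of_mul_le_mul_right h2 hnpos
    -- the sum of the squared inner products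
    have hsum : (‖g‖ ^ 2) ^ 2 ≤ ∑ a, (inner ℝ (w a) g) ^ 2 := by
      have h1 : ∑ a, c p a * inner ℝ (w a) g = ‖g‖ ^ 2 := by
        have e1 : ∑ a, c p a * inner ℝ (w a) g = inner ℝ (∑ a, c p a • w a) g := by
          rw [sum_inner]
          refine Finset.sum_congr rfl fun a _ => ?_
          rw [inner_smul_left]; simp
        have e2 : inner ℝ (∑ a, c p a • w a - u p) g = 0 := by
          rw [hgdef, inner_sub_right, horth p p le_rfl]
          have : inner ℝ (∑ a, c p a • w a - u p) (projOn u A' (u p)) = 0 := by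
            apply inner_spanOn_eq_zero u A' _ _ (projOn_mem u A' (u p))
            intro i hi
            apply horth p i
            rw [hpdef]
            exact Finset.min'_le A i (hsubA hi)
          rw [this]; ring
        have e3 : inner ℝ (u p) g = ‖g‖ ^ 2 := by
          have : u p = g + projOn u A' (u p) := by rw [hgdef]; abel
          conv_lhs => rw [this]
          rw [inner_add_left, real_inner_self_eq_norm_sq, real_inner_comm,
            hgorth _ (projOn_mem u A' (u p))]
          ring
        rw [e1]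
        have : inner ℝ (∑ a, c p a • w a) g =
            inner ℝ (∑ a, c p a • w a - u p) g + inner ℝ (u p) g := by
          rw [← inner_add_left]; congr 1; abel
        rw [this, e2, e3]; ring
      have h2 := Finset.sum_mul_sq_le_sq_mul_sq Finset.univ (fun a => c p a)
        (fun a => inner ℝ (w a) g)
      rw [h1] at h2
      have h3 : 0 ≤ ∑ a, (inner ℝ (w a) g) ^ 2 := Finset.sum_nonneg fun a _ => sq_nonneg _
      calc (‖g‖ ^ 2) ^ 2 ≤ (∑ a, (c p a) ^ 2) * ∑ a, (inner ℝ (w a) g) ^ 2 := h2
        _ ≤ 1 * ∑ a, (inner ℝ (w a) g) ^ 2 := mul_le_mul_of_nonneg_right (hc p) h3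
        _ = ∑ a, (inner ℝ (w a) g) ^ 2 := one_mul _
    have hdiv : ‖g‖ ^ 2 ≤ (∑ a, (inner ℝ (w a) g) ^ 2) / ‖g‖ ^ 2 := by
      rw [le_div_iff₀ hgpos]
      calc ‖g‖ ^ 2 * ‖g‖ ^ 2 = (‖g‖ ^ 2) ^ 2 := by ring
        _ ≤ _ := hsum
    have htot : gamFun u w A' + (∑ a, (inner ℝ (w a) g) ^ 2) / ‖g‖ ^ 2 ≤ gamFun u w A := by
      unfold gamFun
      rw [Finset.sum_div, ← Finset.sum_add_distrib]
      exact Finset.sum_le_sum fun a _ => hper a
    linarith

theorem hilbert_rounding {d : ℕ} (u : Fin N → E) (w : Fin d → E) (c : Fin N → Fin d → ℝ)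
    (hc : ∀ p, ∑ a, (c p a) ^ 2 ≤ 1)
    (horth : ∀ p j, p ≤ j → inner ℝ (∑ a, c p a • w a - u p) (u j) = 0) :
    ∃ ε : Fin N → ℝ, (∀ i, ε i = 1 ∨ ε i = -1) ∧
      ‖∑ i, ε i • u i‖ ^ 2 ≤ ∑ a, ‖w a‖ ^ 2 := by
  have hD0 : ∀ A : Finset (Fin N), 0 ≤ dFun u A := by
    intro A; unfold dFun; split_ifs <;> positivity
  obtain ⟨ε, hε, hle⟩ := abstract_rounding u (dirFun u) (gamFun u w) (dFun u)
    (fun A i hi => by
      by_cases hA : A.Nonempty
      · exact (dirFun_spec u A hA).1 i hi
      · unfold dirFun; rw [dif_neg hA]; rfl)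
    (fun A hA => (dirFun_spec u A hA).2.1)
    (fun A hA => by
      rw [(dirFun_spec u A hA).2.2]
      unfold dFun; rw [dif_pos hA])
    (fun A A' hA hsub hp => by
      refine ⟨gamFun_mono u w hsub, ?_⟩
      have hA' : A'.Nonempty := ⟨_, hp⟩
      have hmin : A'.min' hA' = A.min' hA := by
        apply le_antisymm
        · exact Finset.min'_le _ _ hp
        · exact Finset.min'_le _ _ (hsub (Finset.min'_mem _ hA'))
      unfold dFun
      rw [dif_pos hA, dif_pos hA', hmin]
      unfold resid
      apply norm_sub_projOn_sq_le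
      exact spanOn_mono u (Finset.erase_subset_erase _ hsub) (projOn_mem u _ _))
    (fun A A' hA hsub => by
      have := gam_step u w c hc horth A A' hA hsub
      unfold dFun; rw [dif_pos hA]; exact this)
    (by unfold gamFun; positivity)
    (fun _ => 0) (by intro i; simp)
  refine ⟨ε, hε, ?_⟩
  have h0 : comb u (fun _ => (0:ℝ)) = 0 := by unfold comb; simp
  have hpot : pot (gamFun u w) (dFun u) (fun _ => (0:ℝ)) ≤ ∑ a, ‖w a‖ ^ 2 := by
    unfold pot
    split_ifs with h
    · have h1 : gamFun u w (alive fun _ => (0:ℝ)) ≤ ∑ a, ‖w a‖ ^ 2 :=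
        Finset.sum_le_sum fun a _ => projOn_sq_le u _ (w a)
      simp only [ne_eq, OfNat.ofNat_ne_zero, not_false_eq_true, zero_pow, zero_mul, sub_zero]
      exact h1
    · positivity
  unfold comb at hle h0
  rw [h0] at hle
  simp only [norm_zero, ne_eq, OfNat.ofNat_ne_zero, not_false_eq_true, zero_pow, zero_add] at hle
  exact le_trans hle hpot

end Vale.Agent.Lib.Helper8
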