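import Mathlib

/-!
A lower bound for signed initial-segment sums of unit vectors in Euclidean space: for every
`c < d + 1` (`d ≥ 2`) there is a finite sequence of unit vectors of `ℝ^d` such that, for every
choice of signs, some initial-segment sum has squared norm at least `c`.

The sequence consists of `d - 2` orthonormal vectors followed by a planar sequence, orthogonal to
them, along which every choice of signs other than the constant ones is punished at once.
-/

namespace Vale.Agent.Lib.Helper8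

open Finset

section Path

variable {E : Type*} [NormedAddCommGroup E] [InnerProductSpace ℝ E]

/-- If leaving the path `g` at any step `k ≥ 1` gives a point of squared norm at least `V`, and
the end point of the path has squared norm at least `V`, then for every choice of signs some
initial-segment sum of the increments of the path has squared norm at least `V`. -/
theorem path_lemma (g : ℕ → E) (hg0 : g 0 = 0) (n : ℕ) (hn : 1 ≤ n) (V : ℝ)
    (h1 : ∀ k, 1 ≤ k → k < n → V ≤ ‖(2 : ℝ) • g k - g (k + 1)‖ ^ 2)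
    (h2 : V ≤ ‖g n‖ ^ 2)
    (ε : ℕ → ℝ) (hε : ∀ i, ε i = 1 ∨ ε i = -1) :
    ∃ k, k < n ∧ V ≤ ‖∑ i ∈ range (k + 1), ε i • (g (i + 1) - g i)‖ ^ 2 := by
  by_contra hcon
  simp only [not_exists, not_and, not_le] at hcon
  have key : ∀ k, k < n →
      ∑ i ∈ range (k + 1), ε i • (g (i + 1) - g i) = ε 0 • g (k + 1) := by
    intro k
    induction k with
    | zero =>
      intro _
      simp [hg0]
    | succ k ih =>
      intro hk
      have ihk := ih (by omega)
      have hc := hcon (k + 1) hk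
      rw [sum_range_succ, ihk] at hc ⊢
      have hb := h1 (k + 1) (by omega) hk
      rcases hε 0 with h0 | h0 <;> rcases hε (k + 1) with hk1 | hk1
      · rw [h0, hk1]
        module
      · exfalso
        rw [h0, hk1] at hc
        have e : (1 : ℝ) • g (k + 1) + (-1 : ℝ) • (g (k + 1 + 1) - g (k + 1))
            = (2 : ℝ) • g (k + 1) - g (k + 1 + 1) := by module
        rw [e] at hc
        linarith
      · exfalso
        rw [h0, hk1] at hc
        have e : (-1 : ℝ) • g (k + 1) + (1 : ℝ) • (g (k + 1 + 1) - g (k + 1))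
            = -((2 : ℝ) • g (k + 1) - g (k + 1 + 1)) := by module
        rw [e, norm_neg] at hc
        linarith
      · rw [h0, hk1]
        module
  have hlast := key (n - 1) (by omega)
  have hc := hcon (n - 1) (by omega)
  rw [hlast] at hc
  have e : n - 1 + 1 = n := by omega
  rw [e] at hc
  rcases hε 0 with h0 | h0
  · rw [h0, one_smul] at hc
    linarith
  · rw [h0, neg_one_smul, norm_neg] at hc
    linarith

end Path

section Planar

/-- The squared norms along the planar path. -/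
noncomputable def Xs (V : ℝ) (j : ℕ) : ℝ := (V - 2) + 2 ^ j * (3 - V)

/-- The multiplier of the planar path at step `j`. -/
noncomputable def lam (V : ℝ) (j : ℕ) : ℂ :=
  ⟨(Xs V j + 1 - V) / 2 / Xs V j,
    Real.sqrt (Xs V j - ((Xs V j + 1 - V) / 2) ^ 2) / Xs V j⟩

/-- The planar path without its starting point `0`. -/
noncomputable def Gs (V : ℝ) : ℕ → ℂ
  | 0 => 1
  | j + 1 => (1 + lam V j) * Gs V j

/-- The planar path, starting at `0`. -/
noncomputable def gpath (V : ℝ) : ℕ → ℂ
  | 0 => 0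
  | j + 1 => Gs V j

theorem Xs_zero (V : ℝ) : Xs V 0 = 1 := by
  unfold Xs
  ring

theorem Xs_succ (V : ℝ) (j : ℕ) : Xs V (j + 1) = 2 * Xs V j + 2 - V := by
  unfold Xs
  rw [pow_succ]
  ring

theorem Xs_ge_one {V : ℝ} (hV : V < 3) (j : ℕ) : 1 ≤ Xs V j := by
  unfold Xs
  have h1 : (1 : ℝ) ≤ 2 ^ j := one_le_pow₀ (by norm_num)
  nlinarith

theorem exists_Xs_ge {V : ℝ} (hV : V < 3) : ∃ j, V ≤ Xs V j := by
  obtain ⟨j, hj⟩ := pow_unbounded_of_one_lt (2 / (3 - V)) (by norm_num : (1 : ℝ) < 2)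
  refine ⟨j, ?_⟩
  unfold Xs
  have h3 : 0 < 3 - V := by linarith
  rw [div_lt_iff₀ h3] at hj
  linarith

theorem lam_valid {V : ℝ} (hV2 : 2 ≤ V) (hV3 : V < 3) {j : ℕ} (hj : Xs V j < V) :
    0 ≤ Xs V j - ((Xs V j + 1 - V) / 2) ^ 2 := by
  have h1 := Xs_ge_one hV3 j
  nlinarith

theorem sq_aux1 (x c s : ℝ) (hx : x ≠ 0) (hs : s ^ 2 = x - c ^ 2) :
    (c / x) * (c / x) + (s / x) * (s / x) = 1 / x := by
  have e : (c / x) * (c / x) + (s / x) * (s / x) = (c ^ 2 + s ^ 2) / (x * x) := by
    field_simp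
  rw [e, hs]
  field_simp
  ring

theorem sq_aux2 (x c s : ℝ) (hx : x ≠ 0) (hs : s ^ 2 = x - c ^ 2) :
    ((1 + c / x) * (1 + c / x) + (0 + s / x) * (0 + s / x)) * x = x + 2 * c + 1 := by
  have e : ((1 + c / x) * (1 + c / x) + (0 + s / x) * (0 + s / x)) * x
      = x + 2 * c + (c ^ 2 + s ^ 2) / x := by
    field_simp
    ring
  rw [e, hs]
  field_simp
  ring

theorem sq_aux3 (x c s : ℝ) (hx : x ≠ 0) (hs : s ^ 2 = x - c ^ 2) :
    ((1 - c / x) * (1 - c / x) + (0 - s / x) * (0 - s / x)) * x = x - 2 * c + 1 := by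
  have e : ((1 - c / x) * (1 - c / x) + (0 - s / x) * (0 - s / x)) * x
      = x - 2 * c + (c ^ 2 + s ^ 2) / x := by
    field_simp
    ring
  rw [e, hs]
  field_simp
  ring

theorem normSq_lam {V : ℝ} (hV2 : 2 ≤ V) (hV3 : V < 3) {j : ℕ} (hj : Xs V j < V) :
    Complex.normSq (lam V j) = 1 / Xs V j := by
  have h1 := Xs_ge_one hV3 j
  have hx : Xs V j ≠ 0 := by linarith
  have hs := Real.sq_sqrt (lam_valid hV2 hV3 hj)
  rw [Complex.normSq_apply]
  simp only [lam]
  exact sq_aux1 _ _ _ hx hs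

theorem normSq_one_add_lam {V : ℝ} (hV2 : 2 ≤ V) (hV3 : V < 3) {j : ℕ} (hj : Xs V j < V) :
    Complex.normSq (1 + lam V j) * Xs V j = 2 * Xs V j + 2 - V := by
  have h1 := Xs_ge_one hV3 j
  have hx : Xs V j ≠ 0 := by linarith
  have hs := Real.sq_sqrt (lam_valid hV2 hV3 hj)
  rw [Complex.normSq_apply]
  simp only [lam, Complex.add_re, Complex.one_re, Complex.add_im, Complex.one_im]
  rw [sq_aux2 _ _ _ hx hs]
  ring

theorem normSq_one_sub_lam {V : ℝ} (hV2 : 2 ≤ V) (hV3 : V < 3) {j : ℕ} (hj : Xs V j < V) :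
    Complex.normSq (1 - lam V j) * Xs V j = V := by
  have h1 := Xs_ge_one hV3 j
  have hx : Xs V j ≠ 0 := by linarith
  have hs := Real.sq_sqrt (lam_valid hV2 hV3 hj)
  rw [Complex.normSq_apply]
  simp only [lam, Complex.sub_re, Complex.one_re, Complex.sub_im, Complex.one_im]
  rw [sq_aux3 _ _ _ hx hs]
  ring

/-- The planar path: unit steps, every deviation after the first step has squared norm at
least `V`, and so has the end point. -/
theorem planar_path {V : ℝ} (hV2 : 2 ≤ V) (hV3 : V < 3) :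
    ∃ n : ℕ, 1 ≤ n ∧ (∀ k, k < n → ‖gpath V (k + 1) - gpath V k‖ = 1) ∧
      (∀ k, 1 ≤ k → k < n → V ≤ ‖(2 : ℝ) • gpath V k - gpath V (k + 1)‖ ^ 2) ∧
      V ≤ ‖gpath V n‖ ^ 2 := by
  classical
  have hex := exists_Xs_ge hV3
  have hJ := Nat.find_spec hex
  have hmin : ∀ j, j < Nat.find hex → Xs V j < V := fun j hj =>
    lt_of_not_ge (Nat.find_min hex hj)
  have hnorm : ∀ j, j ≤ Nat.find hex → Complex.normSq (Gs V j) = Xs V j := by
    intro j
    induction j with
    | zero =>
      intro _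
      simp [Gs, Xs_zero]
    | succ j ih =>
      intro hj
      have hlt := hmin j (by omega)
      show Complex.normSq ((1 + lam V j) * Gs V j) = Xs V (j + 1)
      rw [Complex.normSq_mul, ih (by omega), normSq_one_add_lam hV2 hV3 hlt, Xs_succ]
  refine ⟨Nat.find hex + 1, by omega, ?_, ?_, ?_⟩
  · intro k hk
    cases k with
    | zero =>
      show ‖Gs V 0 - 0‖ = 1
      simp [Gs]
    | succ j =>
      have hlt := hmin j (by omega)
      have h1 := Xs_ge_one hV3 j
      show ‖(1 + lam V j) * Gs V j - Gs V j‖ = 1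
      have e : (1 + lam V j) * Gs V j - Gs V j = lam V j * Gs V j := by ring
      have hsq : ‖lam V j * Gs V j‖ ^ 2 = 1 := by
        rw [Complex.sq_norm, Complex.normSq_mul, hnorm j (by omega), normSq_lam hV2 hV3 hlt]
        field_simp
      rw [e]
      have h0 : 0 ≤ ‖lam V j * Gs V j‖ := norm_nonneg _
      nlinarith
  · intro k hk1 hk
    obtain ⟨j, rfl⟩ : ∃ j, k = j + 1 := ⟨k - 1, by omega⟩
    have hlt := hmin j (by omega)
    show V ≤ ‖(2 : ℝ) • Gs V j - (1 + lam V j) * Gs V j‖ ^ 2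
    have e : (2 : ℝ) • Gs V j - (1 + lam V j) * Gs V j = (1 - lam V j) * Gs V j := by
      rw [Complex.real_smul]
      push_cast
      ring
    rw [e, Complex.sq_norm, Complex.normSq_mul, hnorm j (by omega),
      normSq_one_sub_lam hV2 hV3 hlt]
  · show V ≤ ‖Gs V (Nat.find hex)‖ ^ 2
    rw [Complex.sq_norm, hnorm _ le_rfl]
    exact hJ

end Planar

section Combine

variable {E : Type*} [NormedAddCommGroup E] [InnerProductSpace ℝ E]

/-- The linear map `z ↦ z.re • a + z.im • b` from the complex plane. -/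
noncomputable def planeMap (a b : E) : ℂ →ₗ[ℝ] E :=
  Complex.reLm.smulRight a + Complex.imLm.smulRight b

theorem planeMap_apply (a b : E) (z : ℂ) : planeMap a b z = z.re • a + z.im • b := by
  simp [planeMap]

theorem planeMap_norm_sq (a b : E) (ha : ‖a‖ = 1) (hb : ‖b‖ = 1) (hab : inner ℝ a b = 0)
    (z : ℂ) : ‖planeMap a b z‖ ^ 2 = ‖z‖ ^ 2 := by
  rw [planeMap_apply, norm_add_sq_real, norm_smul, norm_smul, inner_smul_left, inner_smul_right,
    hab, ha, hb, Complex.sq_norm, Complex.normSq_apply]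
  simp only [Real.norm_eq_abs, mul_one, mul_zero, sq_abs]
  ring

theorem planeMap_norm (a b : E) (ha : ‖a‖ = 1) (hb : ‖b‖ = 1) (hab : inner ℝ a b = 0)
    (z : ℂ) : ‖planeMap a b z‖ = ‖z‖ := by
  have h := planeMap_norm_sq a b ha hb hab z
  exact (sq_eq_sq₀ (norm_nonneg _) (norm_nonneg _)).mp h

omit [InnerProductSpace ℝ E] in
/-- Sums over an initial segment of `Fin N` as sums over a range. -/
theorem sum_Iic_eq_sum_range {N : ℕ} (f : ℕ → E) (k : Fin N) :
    ∑ i ∈ Finset.Iic k, f (i : ℕ) = ∑ i ∈ range ((k : ℕ) + 1), f i := by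
  have h : (Finset.Iic k).map Fin.valEmbedding = range ((k : ℕ) + 1) := by
    rw [Fin.map_valEmbedding_Iic]
    ext i
    simp
  rw [← h, Finset.sum_map]
  rfl

/-- `m` orthonormal vectors followed by a planar sequence orthogonal to them: every choice of
signs has an initial-segment sum of squared norm at least `m + V`, for every `V < 3`. -/
theorem rigid_planar {m : ℕ} (w : Fin m → E) (hw : Orthonormal ℝ w) (a b : E)
    (ha : ‖a‖ = 1) (hb : ‖b‖ = 1) (hab : inner ℝ a b = 0)
    (hwa : ∀ i, inner ℝ (w i) a = 0) (hwb : ∀ i, inner ℝ (w i) b = 0)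
    {V : ℝ} (hV2 : 2 ≤ V) (hV3 : V < 3) :
    ∃ (N : ℕ) (v : Fin N → E), (∀ i, ‖v i‖ = 1) ∧
      ∀ ε : Fin N → ℝ, (∀ i, ε i = 1 ∨ ε i = -1) →
        ∃ k : Fin N, (m : ℝ) + V ≤ ‖∑ i ∈ Finset.Iic k, ε i • v i‖ ^ 2 := by
  classical
  obtain ⟨n, hn1, hunit, hbad, hend⟩ := planar_path hV2 hV3
  -- the sequence, indexed by all natural numbers
  obtain ⟨v', hv'⟩ : ∃ v' : ℕ → E, v' = fun i =>
      if h : i < m then w ⟨i, h⟩
      else planeMap a b (gpath V (i - m + 1) - gpath V (i - m)) := ⟨_, rfl⟩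
  have hv'1 : ∀ i : Fin m, v' (i : ℕ) = w i := by
    intro i
    rw [hv']
    simp
  have hv'2 : ∀ j : ℕ, v' (m + j) = planeMap a b (gpath V (j + 1) - gpath V j) := by
    intro j
    rw [hv']
    have h : ¬ (m + j < m) := by omega
    have e : m + j - m = j := by omega
    simp only [h, dif_neg, not_false_eq_true, e]
  refine ⟨m + n, fun i => v' (i : ℕ), ?_, ?_⟩
  · intro i
    show ‖v' (i : ℕ)‖ = 1
    by_cases h : (i : ℕ) < m
    · have := hv'1 ⟨i, h⟩
      simp only at this
      rw [this]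
      exact hw.1 _
    · obtain ⟨j, hj⟩ : ∃ j, (i : ℕ) = m + j := ⟨(i : ℕ) - m, by omega⟩
      have hjn : j < n := by
        have := i.isLt
        omega
      rw [hj, hv'2, planeMap_norm a b ha hb hab]
      exact hunit j hjn
  · intro ε hε
    -- extend the signs to all natural numbers
    obtain ⟨ε', hε'⟩ : ∃ ε' : ℕ → ℝ, ε' = fun i =>
        if h : i < m + n then ε ⟨i, h⟩ else 1 := ⟨_, rfl⟩
    have hε'1 : ∀ i, ε' i = 1 ∨ ε' i = -1 := by
      intro i
      rw [hε']
      by_cases h : i < m + n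
      · simp only [h, dif_pos]
        exact hε _
      · simp only [h, dif_neg, not_false_eq_true]
        left
        trivial
    have hε'2 : ∀ i : Fin (m + n), ε' (i : ℕ) = ε i := by
      intro i
      rw [hε']
      simp
    obtain ⟨k', hk', hk'V⟩ := path_lemma (gpath V) rfl n hn1 V hbad hend
      (fun j => ε' (m + j)) (fun j => hε'1 _)
    refine ⟨⟨m + k', by omega⟩, ?_⟩
    show (m : ℝ) + V ≤ ‖∑ i ∈ Finset.Iic (⟨m + k', by omega⟩ : Fin (m + n)), ε i • v' (i : ℕ)‖ ^ 2
    have e1 : ∑ i ∈ Finset.Iic (⟨m + k', by omega⟩ : Fin (m + n)), ε i • v' (i : ℕ)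
        = ∑ i ∈ range (m + (k' + 1)), ε' i • v' i := by
      have h := sum_Iic_eq_sum_range (fun i => ε' i • v' i) (⟨m + k', by omega⟩ : Fin (m + n))
      have e : ((⟨m + k', by omega⟩ : Fin (m + n)) : ℕ) + 1 = m + (k' + 1) := by
        simp only
        omega
      rw [e] at h
      rw [← h]
      refine Finset.sum_congr rfl (fun i _ => ?_)
      rw [hε'2]
    rw [e1, Finset.sum_range_add]
    -- the rigid part
    have e2 : ∑ i ∈ range m, ε' i • v' i = ∑ i : Fin m, ε' (i : ℕ) • w i := by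
      rw [← Fin.sum_univ_eq_sum_range (fun i => ε' i • v' i) m]
      refine Finset.sum_congr rfl (fun i _ => ?_)
      rw [hv'1]
    -- the planar part
    have e3 : ∑ j ∈ range (k' + 1), ε' (m + j) • v' (m + j)
        = planeMap a b (∑ j ∈ range (k' + 1), ε' (m + j) • (gpath V (j + 1) - gpath V j)) := by
      rw [map_sum]
      refine Finset.sum_congr rfl (fun j _ => ?_)
      rw [hv'2, map_smul]
    rw [e2, e3]
    set R : E := ∑ i : Fin m, ε' (i : ℕ) • w i with hR
    set z : ℂ := ∑ j ∈ range (k' + 1), ε' (m + j) • (gpath V (j + 1) - gpath V j) with hz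
    have hRa : inner ℝ R a = 0 := by
      rw [hR, sum_inner]
      refine Finset.sum_eq_zero (fun i _ => ?_)
      rw [inner_smul_left, hwa]
      simp
    have hRb : inner ℝ R b = 0 := by
      rw [hR, sum_inner]
      refine Finset.sum_eq_zero (fun i _ => ?_)
      rw [inner_smul_left, hwb]
      simp
    have hRz : inner ℝ R (planeMap a b z) = 0 := by
      rw [planeMap_apply, inner_add_right, inner_smul_right, inner_smul_right, hRa, hRb]
      simp
    have hRn : ‖R‖ ^ 2 = m := by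
      rw [← real_inner_self_eq_norm_sq, hR, hw.inner_sum]
      have : ∀ i : Fin m, (starRingEnd ℝ) (ε' (i : ℕ)) * ε' (i : ℕ) = 1 := by
        intro i
        rcases hε'1 (i : ℕ) with h | h <;> simp [h]
      rw [Finset.sum_congr rfl (fun i _ => this i)]
      simp
    rw [norm_add_sq_real, hRz, hRn, planeMap_norm_sq a b ha hb hab]
    linarith

end Combine

section Euclid

/-- For every `d ≥ 2` and every `c < d + 1` there is a finite sequence of unit vectors of
`ℝ^d` such that for every choice of signs some initial-segment sum has squared norm at least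
`c`. -/
theorem signed_lower_bound (d : ℕ) (hd : 2 ≤ d) (c : ℝ) (hc : c < (d : ℝ) + 1) :
    ∃ (N : ℕ) (v : Fin N → EuclideanSpace ℝ (Fin d)), (∀ i, ‖v i‖ = 1) ∧
      ∀ ε : Fin N → ℝ, (∀ i, ε i = 1 ∨ ε i = -1) →
        ∃ k : Fin N, c ≤ ‖∑ i ∈ Finset.Iic k, ε i • v i‖ ^ 2 := by
  obtain ⟨m, rfl⟩ : ∃ m, d = m + 2 := ⟨d - 2, by omega⟩
  have hon : Orthonormal ℝ (EuclideanSpace.basisFun (Fin (m + 2)) ℝ) :=
    (EuclideanSpace.basisFun (Fin (m + 2)) ℝ).orthonormal
  have hw : Orthonormal ℝ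
      (fun i : Fin m => EuclideanSpace.basisFun (Fin (m + 2)) ℝ (Fin.castAdd 2 i)) :=
    hon.comp (Fin.castAdd 2) (Fin.castAdd_injective m 2)
  have h01 : (Fin.natAdd m (0 : Fin 2)) ≠ Fin.natAdd m (1 : Fin 2) := by
    intro h
    have := congrArg Fin.val h
    simp at this
  have hc0 : ∀ i : Fin m, Fin.castAdd 2 i ≠ Fin.natAdd m (0 : Fin 2) := by
    intro i h
    have := congrArg Fin.val h
    simp at this
    omega
  have hc1 : ∀ i : Fin m, Fin.castAdd 2 i ≠ Fin.natAdd m (1 : Fin 2) := by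
    intro i h
    have := congrArg Fin.val h
    simp at this
    omega
  have hV2 : (2 : ℝ) ≤ max 2 (c - m) := le_max_left _ _
  have hV3 : max 2 (c - m) < 3 := by
    refine max_lt (by norm_num) ?_
    push_cast at hc
    linarith
  obtain ⟨N, v, hv, hmain⟩ := rigid_planar
    (fun i : Fin m => EuclideanSpace.basisFun (Fin (m + 2)) ℝ (Fin.castAdd 2 i)) hw
    (EuclideanSpace.basisFun (Fin (m + 2)) ℝ (Fin.natAdd m 0))
    (EuclideanSpace.basisFun (Fin (m + 2)) ℝ (Fin.natAdd m 1))
    (hon.1 _) (hon.1 _) (hon.2 h01) (fun i => hon.2 (hc0 i)) (fun i => hon.2 (hc1 i)) hV2 hV3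
  refine ⟨N, v, hv, fun ε hε => ?_⟩
  obtain ⟨k, hk⟩ := hmain ε hε
  refine ⟨k, le_trans ?_ hk⟩
  have := le_max_right 2 (c - m)
  linarith

end Euclid

end Vale.Agent.Lib.Helper8
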